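import Vale.Agent.BinPack.Core

/-!
Composition: big items with small slots force an item of a small instance `T` out of the slots;
that item does not fit into the bins of the instance `J`.
-/

namespace Vale.Agent.BinPack

lemma dotF_append (s t : List ℕ) (y : ℕ → ℕ) :
    dotF (s ++ t) y = dotF s y + dotF t (fun i => y (i + s.length)) := by
  induction s generalizing y with
  | nil => simp [dotF]
  | cons a s ih =>
    simp only [List.cons_append, dotF, ih, List.length_cons]
    have : (fun i => y (i + 1 + s.length)) = (fun i => y (i + (s.length + 1))) := by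
      funext i; congr 1; omega
    rw [← add_assoc]
    simp only [add_right_comm] at this ⊢
    rfl

lemma single_le_dotF (s : List ℕ) : ∀ (y : ℕ → ℕ) (i : ℕ) (hi : i < s.length),
    s[i] * y i ≤ dotF s y := by
  induction s with
  | nil => intro y i hi; simp at hi
  | cons a s ih =>
    intro y i hi
    cases i with
    | zero => simp [dotF]
    | succ i =>
      have := ih (fun j => y (j + 1)) i (by simpa using hi)
      simp only [dotF, List.getElem_cons_succ]
      omega

lemma coord_zero_of_dot (s : List ℕ) (cap : ℕ) (hs : ∀ a ∈ s, cap < a) :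
    ∀ (y : ℕ → ℕ), dotF s y ≤ cap → ∀ i < s.length, y i = 0 := by
  intro y h i hi
  by_contra hne
  have h1 := single_le_dotF s y i hi
  have h2 := hs s[i] (List.getElem_mem hi)
  have h3 : s[i] * 1 ≤ s[i] * y i := Nat.mul_le_mul_left _ (Nat.one_le_iff_ne_zero.mpr hne)
  omega

/-- The composition theorem, in terms of counts indexed by natural numbers. -/
theorem compose {α : Type} [DecidableEq α]
    (L big nB kJ X : ℕ) (sT bT sJ bJ : List ℕ)
    (hbT : bT.length = sT.length) (hbJ : bJ.length = sJ.length)
    (h1 : L < 2 * big) (h1' : big ≤ L) (h2 : ∀ a ∈ sJ, L - big < a)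
    (h3 : noPack sT (L - big) nB bT = true)
    (h4 : noPack (sJ ++ [X]) L kJ (bJ ++ [1]) = true)
    (h5 : ∀ a ∈ sT, X ≤ a)
    (B : Finset α) (y : α → ℕ → ℕ)
    (hfit : ∀ b ∈ B, dotF (big :: (sT ++ sJ)) (y b) ≤ L)
    (hsum : ∀ i < (big :: (sT ++ sJ)).length,
      ∑ b ∈ B, y b i = (nB :: (bT ++ bJ)).getD i 0) :
    nB + kJ < B.card := by
  by_contra hcard
  push Not at hcard
  -- decomposition of the fit condition
  have hfit' : ∀ b ∈ B, big * y b 0 + dotF sT (fun i => y b (i + 1))
      + dotF sJ (fun i => y b (i + sT.length + 1)) ≤ L := by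
    intro b hb
    have := hfit b hb
    simp only [dotF, dotF_append] at this
    omega
  have hle1 : ∀ b ∈ B, y b 0 ≤ 1 := by
    intro b hb
    by_contra hne
    have h := hfit' b hb
    have : big * 2 ≤ big * y b 0 := Nat.mul_le_mul_left _ (by omega)
    omega
  classical
  set Bb := B.filter (fun b => 1 ≤ y b 0) with hBb
  have hBbsub : Bb ⊆ B := Finset.filter_subset _ _
  have hcardBb : Bb.card = nB := by
    have h0 := hsum 0 (by simp)
    simp only [List.getD_cons_zero] at h0
    rw [← h0, hBb, Finset.card_filter]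
    apply Finset.sum_congr rfl
    intro b hb
    have := hle1 b hb
    by_cases hy : 1 ≤ y b 0
    · simp only [hy, if_true]; omega
    · simp only [hy, if_false]; omega
  -- big bins contain no item of J and have room `L - big` for items of T
  have hbigT : ∀ b ∈ Bb, dotF sT (fun i => y b (i + 1)) ≤ L - big := by
    intro b hb
    obtain ⟨hbB, hb1⟩ := Finset.mem_filter.mp hb
    have h := hfit' b hbB
    have : big * 1 ≤ big * y b 0 := Nat.mul_le_mul_left _ hb1
    omega
  have hbigJ : ∀ b ∈ Bb, ∀ j < sJ.length, y b (j + sT.length + 1) = 0 := by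
    intro b hb j hj
    obtain ⟨hbB, hb1⟩ := Finset.mem_filter.mp hb
    have h := hfit' b hbB
    have : big * 1 ≤ big * y b 0 := Nat.mul_le_mul_left _ hb1
    exact coord_zero_of_dot sJ (L - big) h2 (fun i => y b (i + sT.length + 1)) (by omega) j hj
  -- sums for T and J
  have hsumT : ∀ i < sT.length, ∑ b ∈ B, y b (i + 1) = bT.getD i 0 := by
    intro i hi
    have := hsum (i + 1) (by simp; omega)
    simp only [List.getD_cons_succ] at this
    rw [this, List.getD_append _ _ _ _ (by omega)]
  have hsumJ : ∀ j < sJ.length, ∑ b ∈ B, y b (j + sT.length + 1) = bJ.getD j 0 := by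
    intro j hj
    have := hsum (j + sT.length + 1) (by simp; omega)
    simp only [List.getD_cons_succ] at this
    rw [this, List.getD_append_right _ _ _ _ (by omega)]
    congr 1
    omega
  -- the instance T does not fit into the slots
  have hT : ∃ i, i < sT.length ∧ ∑ b ∈ Bb, y b (i + 1) ≠ bT.getD i 0 := by
    by_contra hno
    push Not at hno
    exact noPack_sound sT (L - big) nB bT hbT h3 Bb (fun b i => y b (i + 1)) hcardBb.le hbigT hno
  obtain ⟨i0, hi0, hne⟩ := hT
  have hC : ∃ b' ∈ B \ Bb, 1 ≤ y b' (i0 + 1) := by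
    by_contra hno
    push Not at hno
    apply hne
    rw [← hsumT i0 hi0, ← Finset.sum_sdiff hBbsub]
    have : ∑ b ∈ B \ Bb, y b (i0 + 1) = 0 :=
      Finset.sum_eq_zero (fun b hb => by have := hno b hb; omega)
    omega
  obtain ⟨b', hb'C, hb'1⟩ := hC
  have hcardC : (B \ Bb).card ≤ kJ := by
    have := Finset.card_sdiff_add_card_eq_card hBbsub
    omega
  -- the contradiction with the instance J together with one more item
  let z : α → ℕ → ℕ := fun b j =>
    if j < sJ.length then y b (j + sT.length + 1) else if b = b' ∧ j = sJ.length then 1 else 0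
  refine noPack_sound (sJ ++ [X]) L kJ (bJ ++ [1]) (by simp [hbJ]) h4 (B \ Bb) z hcardC ?_ ?_
  · intro b hb
    have hbB : b ∈ B := (Finset.mem_sdiff.mp hb).1
    have h := hfit' b hbB
    rw [dotF_append]
    have e1 : dotF sJ (z b) = dotF sJ (fun i => y b (i + sT.length + 1)) :=
      dotF_congr sJ _ _ (fun i hi => by simp [z, hi])
    rw [e1]
    simp only [dotF]
    by_cases hbb : b = b'
    · subst hbb
      have hz : z b (0 + sJ.length) = 1 := by simp [z]
      rw [hz]
      have h6 := single_le_dotF sT (fun i => y b (i + 1)) i0 hi0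
      have h7 := h5 sT[i0] (List.getElem_mem hi0)
      have h8 : sT[i0] * 1 ≤ sT[i0] * y b (i0 + 1) := Nat.mul_le_mul_left _ hb'1
      omega
    · have hz : z b (0 + sJ.length) = 0 := by simp [z, hbb]
      rw [hz]
      omega
  · intro j hj
    simp only [List.length_append, List.length_cons, List.length_nil] at hj
    by_cases hjJ : j < sJ.length
    · have e : ∑ b ∈ B \ Bb, z b j = ∑ b ∈ B \ Bb, y b (j + sT.length + 1) :=
        Finset.sum_congr rfl (fun b _ => by simp [z, hjJ])
      rw [e, List.getD_append _ _ _ _ (by omega), ← hsumJ j hjJ, ← Finset.sum_sdiff hBbsub]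
      have : ∑ b ∈ Bb, y b (j + sT.length + 1) = 0 :=
        Finset.sum_eq_zero (fun b hb => hbigJ b hb j hjJ)
      omega
    · have hj' : j = sJ.length := by omega
      subst hj'
      have e : ∑ b ∈ B \ Bb, z b sJ.length = ∑ b ∈ B \ Bb, (if b = b' then 1 else 0) :=
        Finset.sum_congr rfl (fun b _ => by simp [z])
      rw [e, Finset.sum_ite_eq' (B \ Bb) b' (fun _ => 1)]
      simp only [hb'C, if_true]
      rw [List.getD_append_right _ _ _ _ (by omega)]
      simp [hbJ]

/-- Extension of a function on `Fin` to the natural numbers. -/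
def extF {n : ℕ} (f : Fin n → ℕ) : ℕ → ℕ := fun i => if h : i < n then f ⟨i, h⟩ else 0

lemma dotF_extF (s : List ℕ) : ∀ (f : Fin s.length → ℕ),
    dotF s (extF f) = ∑ i : Fin s.length, s.get i * f i := by
  induction s with
  | nil => intro f; simp [dotF]
  | cons a s ih =>
    intro f
    have : (fun i => extF f (i + 1)) = extF (fun i : Fin s.length => f (Fin.cast (by simp) i.succ)) := by
      funext i
      simp only [extF]
      by_cases h : i < s.length
      · have h' : i + 1 < (a :: s).length := by simpa using h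
        simp only [h, h', dif_pos]
        rfl
      · have h' : ¬ (i + 1 < (a :: s).length) := by simpa using h
        simp [h, h']
    simp only [dotF, this, ih]
    have e : extF f 0 = f ⟨0, by simp⟩ := by simp [extF]
    rw [e]
    exact (Fin.sum_univ_succ (n := s.length) (fun i : Fin (s.length + 1) => (a :: s).get i * f i)).symm

/-- The counting bound for the final instance, in the form used in the statement. -/
theorem packing_bound (L big nB kJ X : ℕ) (sT bT sJ bJ : List ℕ)
    (hL : 0 < L) (hbT : bT.length = sT.length) (hbJ : bJ.length = sJ.length)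
    (h1 : L < 2 * big) (h1' : big ≤ L) (h2 : ∀ a ∈ sJ, L - big < a)
    (h3 : noPack sT (L - big) nB bT = true)
    (h4 : noPack (sJ ++ [X]) L kJ (bJ ++ [1]) = true)
    (h5 : ∀ a ∈ sT, X ≤ a)
    (s n : List ℕ) (hs : s = big :: (sT ++ sJ)) (hn : n = nB :: (bT ++ bJ))
    (m : ℕ) (x : Fin m → Fin s.length → ℕ)
    (hfit : ∀ b, ∑ i, ((s.get i : ℚ) / L) * (x b i : ℚ) ≤ 1)
    (hsum : ∀ i : Fin s.length, ∑ b, x b i = n.getD i 0) :
    nB + kJ + 1 ≤ m := by
  subst hs hn
  have hmain := compose (α := Fin m) L big nB kJ X sT bT sJ bJ hbT hbJ h1 h1' h2 h3 h4 h5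
    Finset.univ (fun b => extF (x b)) ?_ ?_
  · simpa using hmain
  · intro b _
    rw [dotF_extF]
    have h := hfit b
    have hL' : (0 : ℚ) < L := by exact_mod_cast hL
    have e : ∑ i, ((((big :: (sT ++ sJ)).get i : ℕ) : ℚ) / L) * (x b i : ℚ)
        = ((∑ i, (big :: (sT ++ sJ)).get i * x b i : ℕ) : ℚ) / L := by
      push_cast
      rw [Finset.sum_div]
      apply Finset.sum_congr rfl
      intro i _
      ring
    rw [e, div_le_one hL'] at h
    exact_mod_cast h
  · intro i hi
    have := hsum ⟨i, hi⟩
    simp only [extF, hi, dif_pos]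
    exact this

end Vale.Agent.BinPack
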