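import Mathlib

/-!
A kernel-friendly check that a list of item types cannot be packed into a given number of bins.
-/

namespace Vale.Agent.BinPack

/-- Weighted sum of the coordinates of a vector given as a function. -/
def dotF : List ℕ → (ℕ → ℕ) → ℕ
  | [], _ => 0
  | a :: s, y => a * y 0 + dotF s (fun i => y (i + 1))

/-- Weighted sum of the entries of a list. -/
def dotL : List ℕ → List ℕ → ℕ
  | a :: s, b :: r => a * b + dotL s r
  | _, _ => 0

/-- The first `n` coordinates of a vector, as a list. -/
def vec : ℕ → (ℕ → ℕ) → List ℕ
  | 0, _ => []
  | n + 1, y => y 0 :: vec n (fun i => y (i + 1))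

/-- `P` holds on every vector below `r` of weight at most `cap`. -/
def allPat : List ℕ → List ℕ → ℕ → (List ℕ → Bool) → Bool
  | [], _, _, P => P []
  | _ :: _, [], _, _ => true
  | a :: s, n :: r, cap, P =>
      (List.range (n + 1)).all fun v =>
        !decide (a * v ≤ cap) || allPat s r (cap - a * v) (fun c => P (v :: c))

/-- The vector `c` is positive at the first place where `r` is positive. -/
def lead : List ℕ → List ℕ → Bool
  | [], _ => true
  | _ :: _, [] => true
  | 0 :: r, _ :: c => lead r c
  | (_ + 1) :: _, v :: _ => decide (1 ≤ v)

/-- Entrywise truncated difference of lists. -/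
def subV : List ℕ → List ℕ → List ℕ
  | a :: r, b :: c => (a - b) :: subV r c
  | r, _ => r

/-- Returns `true` only if the vector `r` of multiplicities cannot be packed into `k` bins of
capacity `L`, the item sizes being `s`. -/
def noPack (s : List ℕ) (L : ℕ) : ℕ → List ℕ → Bool
  | 0, r => r.any (fun a => a != 0)
  | k + 1, r =>
      decide ((k + 1) * L < dotL s r) ||
        (r.any (fun a => a != 0) &&
          allPat s r L (fun c => !lead r c || noPack s L k (subV r c)))

lemma allPat_sound (s : List ℕ) : ∀ (r : List ℕ) (cap : ℕ) (P : List ℕ → Bool) (y : ℕ → ℕ),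
    r.length = s.length → (∀ i < s.length, y i ≤ r.getD i 0) → dotF s y ≤ cap →
    allPat s r cap P = true → P (vec s.length y) = true := by
  induction s with
  | nil => intro r cap P y _ _ _ h; simpa [allPat, vec] using h
  | cons a s ih =>
    intro r cap P y hlen hle hdot h
    cases r with
    | nil => simp at hlen
    | cons n r =>
      simp only [allPat, List.all_eq_true, List.mem_range, Bool.or_eq_true, Bool.not_eq_true',
        decide_eq_false_iff_not] at h
      have h0 : y 0 ≤ n := by simpa using hle 0 (by simp)
      have hd : a * y 0 + dotF s (fun i => y (i + 1)) ≤ cap := hdot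
      rcases h (y 0) (by omega) with h1 | h1
      · exact absurd (by omega : a * y 0 ≤ cap) h1
      · have := ih r (cap - a * y 0) (fun c => P (y 0 :: c)) (fun i => y (i + 1))
          (by simpa using hlen)
          (fun i hi => by simpa using hle (i + 1) (by simpa using hi))
          (by omega) h1
        simpa [vec] using this

lemma exists_lead {α : Type} (B : Finset α) (hB : B.Nonempty) (r : List ℕ) :
    ∀ (x : α → ℕ → ℕ), (∀ i < r.length, ∑ b ∈ B, x b i = r.getD i 0) →
      ∃ b ∈ B, lead r (vec r.length (x b)) = true := by
  induction r with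
  | nil =>
    intro x _
    obtain ⟨b, hb⟩ := hB
    exact ⟨b, hb, by simp [lead]⟩
  | cons n r ih =>
    intro x hx
    cases n with
    | zero =>
      have := ih (fun b i => x b (i + 1))
        (fun i hi => by simpa using hx (i + 1) (by simpa using hi))
      obtain ⟨b, hb, h⟩ := this
      exact ⟨b, hb, by simpa [lead, vec] using h⟩
    | succ n =>
      have h0 := hx 0 (by simp)
      have hpos : 0 < ∑ b ∈ B, x b 0 := by rw [h0]; simp
      obtain ⟨b, hb, hbp⟩ := Finset.exists_ne_zero_of_sum_ne_zero hpos.ne'
      refine ⟨b, hb, ?_⟩
      have : 1 ≤ x b 0 := Nat.one_le_iff_ne_zero.mpr hbp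
      simpa [lead, vec] using this

lemma getD_subV (y : ℕ → ℕ) : ∀ (r : List ℕ) (i : ℕ), i < r.length →
    (subV r (vec r.length y)).getD i 0 = r.getD i 0 - y i := by
  intro r
  induction r generalizing y with
  | nil => intro i hi; simp at hi
  | cons a r ih =>
    intro i hi
    cases i with
    | zero => simp [subV, vec]
    | succ i =>
      have := ih (fun j => y (j + 1)) i (by simpa using hi)
      simpa [subV, vec] using this

lemma length_subV (y : ℕ → ℕ) : ∀ (r : List ℕ), (subV r (vec r.length y)).length = r.length := by
  intro r
  induction r generalizing y with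
  | nil => simp [subV, vec]
  | cons a r ih =>
    have := ih (fun j => y (j + 1))
    simpa [subV, vec] using this

lemma dotF_sum {α : Type} (B : Finset α) (x : α → ℕ → ℕ) (s : List ℕ) :
    dotF s (fun i => ∑ b ∈ B, x b i) = ∑ b ∈ B, dotF s (x b) := by
  induction s generalizing x with
  | nil => simp [dotF]
  | cons a s ih =>
    simp only [dotF]
    rw [ih (fun b i => x b (i + 1)), Finset.sum_add_distrib, Finset.mul_sum]

lemma dotF_congr (s : List ℕ) : ∀ (y z : ℕ → ℕ), (∀ i < s.length, y i = z i) →
    dotF s y = dotF s z := by
  induction s with
  | nil => intro y z _; simp [dotF]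
  | cons a s ih =>
    intro y z h
    simp only [dotF]
    rw [h 0 (by simp), ih (fun i => y (i + 1)) (fun i => z (i + 1))
      (fun i hi => h (i + 1) (by simpa using hi))]

lemma dotF_getD (s : List ℕ) : ∀ (r : List ℕ), r.length = s.length →
    dotF s (fun i => r.getD i 0) = dotL s r := by
  induction s with
  | nil => intro r _; simp [dotF, dotL]
  | cons a s ih =>
    intro r h
    cases r with
    | nil => simp at h
    | cons n r =>
      have := ih r (by simpa using h)
      simp only [dotF, dotL]
      simpa using this

/-- Soundness of the packing check. -/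
theorem noPack_sound {α : Type} [DecidableEq α] (s : List ℕ) (L : ℕ) :
    ∀ (k : ℕ) (r : List ℕ), r.length = s.length → noPack s L k r = true →
    ∀ (B : Finset α) (x : α → ℕ → ℕ), B.card ≤ k → (∀ b ∈ B, dotF s (x b) ≤ L) →
      (∀ i < s.length, ∑ b ∈ B, x b i = r.getD i 0) → False := by
  intro k
  induction k with
  | zero =>
    intro r hlen h B x hcard _ hsum
    have hB : B = ∅ := Finset.card_eq_zero.mp (by omega)
    subst hB
    simp only [noPack, List.any_eq_true, bne_iff_ne] at h
    obtain ⟨a, ha, hne⟩ := h
    obtain ⟨i, hi, rfl⟩ := List.getElem_of_mem ha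
    have := hsum i (by omega)
    simp only [Finset.sum_empty] at this
    rw [List.getD_eq_getElem _ _ hi] at this
    exact hne this.symm
  | succ k ih =>
    intro r hlen h B x hcard hfit hsum
    have htot : dotL s r ≤ (k + 1) * L := by
      rw [← dotF_getD s r hlen]
      have h1 : dotF s (fun i => r.getD i 0) = dotF s (fun i => ∑ b ∈ B, x b i) :=
        dotF_congr s _ _ (fun i hi => (hsum i hi).symm)
      rw [h1, dotF_sum]
      calc ∑ b ∈ B, dotF s (x b) ≤ ∑ _b ∈ B, L := Finset.sum_le_sum hfit
        _ = B.card * L := by simp
        _ ≤ (k + 1) * L := Nat.mul_le_mul_right _ hcard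
    simp only [noPack, Bool.or_eq_true, decide_eq_true_eq, Bool.and_eq_true] at h
    rcases h with h | ⟨hany, h⟩
    · omega
    · rcases B.eq_empty_or_nonempty with hB | hB
      · subst hB
        simp only [List.any_eq_true, bne_iff_ne] at hany
        obtain ⟨a, ha, hne⟩ := hany
        obtain ⟨i, hi, rfl⟩ := List.getElem_of_mem ha
        have := hsum i (by omega)
        simp only [Finset.sum_empty] at this
        rw [List.getD_eq_getElem _ _ hi] at this
        exact hne this.symm
      · obtain ⟨b, hb, hlead⟩ := exists_lead B hB r x (fun i hi => hsum i (by omega))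
        have hle : ∀ i < s.length, x b i ≤ r.getD i 0 := by
          intro i hi
          rw [← hsum i hi]
          exact Finset.single_le_sum (f := fun c => x c i) (fun _ _ => Nat.zero_le _) hb
        have hP := allPat_sound s r L _ (x b) hlen hle (hfit b hb) h
        rw [← hlen] at hP
        simp only [Bool.or_eq_true, Bool.not_eq_true'] at hP
        rcases hP with hP | hP
        · rw [hlead] at hP
          exact absurd hP (by simp)
        · refine ih (subV r (vec r.length (x b))) ?_ hP (B.erase b) x ?_ ?_ ?_
          · rw [length_subV, hlen]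
          · rw [Finset.card_erase_of_mem hb]; omega
          · intro c hc
            exact hfit c (Finset.mem_of_mem_erase hc)
          · intro i hi
            rw [getD_subV (x b) r i (by omega), ← hsum i hi]
            rw [← Finset.add_sum_erase B (fun c => x c i) hb]
            simp

end Vale.Agent.BinPack
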