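import Vale.Agent.BinPack.Final

/-!
A direct check that a bin packing instance needs many bins, with the enumeration of the contents
of a bin cut down by the total size of the items: a bin that is filled too little leaves more
material than the other bins can take.
-/

namespace Vale.Agent.BinPack

/-- `P` holds on every vector `c` below `r` of weight at most `cap` and at least `need`;
`rem` is the weight of `r`. -/
def allPatB : List ℕ → List ℕ → ℕ → ℕ → ℕ → (List ℕ → Bool) → Bool
  | [], _, _, _, _, P => P []
  | _ :: _, [], _, _, _, _ => true
  | a :: s, n :: r, cap, need, rem, P =>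
      let rem' := rem - a * n
      (List.range (n + 1)).all fun v =>
        !decide (a * v ≤ cap) || decide (a * v + rem' < need) ||
          allPatB s r (cap - a * v) (need - a * v) rem' (fun c => P (v :: c))

/-- Returns `true` only if the vector `r` of multiplicities cannot be packed into `k` bins of
capacity `L`, the item sizes being `s`. Here `tot` is the weight of `r`. -/
def noPackB (s : List ℕ) (L : ℕ) : ℕ → List ℕ → Bool
  | 0, r => r.any (fun a => a != 0)
  | k + 1, r =>
      let tot := dotL s r
      decide ((k + 1) * L < tot) ||
        (r.any (fun a => a != 0) &&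
          allPatB s r L (tot - k * L) tot (fun c => !lead r c || noPackB s L k (subV r c)))

lemma dotL_eq_head (a : ℕ) (s : List ℕ) (n : ℕ) (r : List ℕ) :
    dotL (a :: s) (n :: r) = a * n + dotL s r := rfl

lemma dotL_le_of_le (s : List ℕ) : ∀ (r : List ℕ) (y : ℕ → ℕ),
    r.length = s.length → (∀ i < s.length, y i ≤ r.getD i 0) → dotF s y ≤ dotL s r := by
  induction s with
  | nil => intro r y _ _; simp [dotF, dotL]
  | cons a s ih =>
    intro r y hlen hle
    cases r with
    | nil => simp at hlen
    | cons n r =>
      have h0 : y 0 ≤ n := by simpa using hle 0 (by simp)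
      have := ih r (fun i => y (i + 1)) (by simpa using hlen)
        (fun i hi => by simpa using hle (i + 1) (by simpa using hi))
      simp only [dotF, dotL]
      have h1 : a * y 0 ≤ a * n := Nat.mul_le_mul_left _ h0
      omega

lemma allPatB_sound (s : List ℕ) : ∀ (r : List ℕ) (cap need rem : ℕ) (P : List ℕ → Bool)
    (y : ℕ → ℕ), r.length = s.length → rem = dotL s r → (∀ i < s.length, y i ≤ r.getD i 0) →
    dotF s y ≤ cap → need ≤ dotF s y →
    allPatB s r cap need rem P = true → P (vec s.length y) = true := by
  induction s with
  | nil => intro r cap need rem P y _ _ _ _ _ h; simpa [allPatB, vec] using h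
  | cons a s ih =>
    intro r cap need rem P y hlen hrem hle hdot hneed h
    cases r with
    | nil => simp at hlen
    | cons n r =>
      have hrem' : rem - a * n = dotL s r := by
        rw [hrem, dotL_eq_head]; omega
      simp only [allPatB, List.all_eq_true, List.mem_range, Bool.or_eq_true, Bool.not_eq_true',
        decide_eq_false_iff_not, decide_eq_true_eq] at h
      have h0 : y 0 ≤ n := by simpa using hle 0 (by simp)
      have hd : a * y 0 + dotF s (fun i => y (i + 1)) ≤ cap := hdot
      have hn : need ≤ a * y 0 + dotF s (fun i => y (i + 1)) := hneed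
      have hle' : ∀ i < s.length, (fun i => y (i + 1)) i ≤ r.getD i 0 :=
        fun i hi => by simpa using hle (i + 1) (by simpa using hi)
      have hlen' : r.length = s.length := by simpa using hlen
      have hbd := dotL_le_of_le s r (fun i => y (i + 1)) hlen' hle'
      rcases h (y 0) (by omega) with (h1 | h1) | h1
      · exact absurd (by omega : a * y 0 ≤ cap) h1
      · rw [hrem'] at h1
        omega
      · have := ih r (cap - a * y 0) (need - a * y 0) (rem - a * n)
          (fun c => P (y 0 :: c)) (fun i => y (i + 1)) hlen' hrem' hle'
          (by omega) (by omega) h1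
        simpa [vec] using this

/-- Soundness of the packing check. -/
theorem noPackB_sound {α : Type} [DecidableEq α] (s : List ℕ) (L : ℕ) :
    ∀ (k : ℕ) (r : List ℕ), r.length = s.length → noPackB s L k r = true →
    ∀ (B : Finset α) (x : α → ℕ → ℕ), B.card ≤ k → (∀ b ∈ B, dotF s (x b) ≤ L) →
      (∀ i < s.length, ∑ b ∈ B, x b i = r.getD i 0) → False := by
  intro k
  induction k with
  | zero =>
    intro r hlen h B x hcard _ hsum
    have hB : B = ∅ := Finset.card_eq_zero.mp (by omega)
    subst hB
    simp only [noPackB, List.any_eq_true, bne_iff_ne] at h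
    obtain ⟨a, ha, hne⟩ := h
    obtain ⟨i, hi, rfl⟩ := List.getElem_of_mem ha
    have := hsum i (by omega)
    simp only [Finset.sum_empty] at this
    rw [List.getD_eq_getElem _ _ hi] at this
    exact hne this.symm
  | succ k ih =>
    intro r hlen h B x hcard hfit hsum
    have htotal : dotL s r = ∑ b ∈ B, dotF s (x b) := by
      rw [← dotF_getD s r hlen]
      have h1 : dotF s (fun i => r.getD i 0) = dotF s (fun i => ∑ b ∈ B, x b i) :=
        dotF_congr s _ _ (fun i hi => (hsum i hi).symm)
      rw [h1, dotF_sum]
    have htot : dotL s r ≤ (k + 1) * L := by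
      rw [htotal]
      calc ∑ b ∈ B, dotF s (x b) ≤ ∑ _b ∈ B, L := Finset.sum_le_sum hfit
        _ = B.card * L := by simp
        _ ≤ (k + 1) * L := Nat.mul_le_mul_right _ hcard
    simp only [noPackB, Bool.or_eq_true, decide_eq_true_eq, Bool.and_eq_true] at h
    rcases h with h | ⟨hany, h⟩
    · omega
    · rcases B.eq_empty_or_nonempty with hB | hB
      · subst hB
        simp only [List.any_eq_true, bne_iff_ne] at hany
        obtain ⟨a, ha, hne⟩ := hany
        obtain ⟨i, hi, rfl⟩ := List.getElem_of_mem ha
        have := hsum i (by omega)
        simp only [Finset.sum_empty] at this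
        rw [List.getD_eq_getElem _ _ hi] at this
        exact hne this.symm
      · obtain ⟨b, hb, hlead⟩ := exists_lead B hB r x (fun i hi => hsum i (by omega))
        have hle : ∀ i < s.length, x b i ≤ r.getD i 0 := by
          intro i hi
          rw [← hsum i hi]
          exact Finset.single_le_sum (f := fun c => x c i) (fun _ _ => Nat.zero_le _) hb
        have hcard' : (B.erase b).card ≤ k := by
          rw [Finset.card_erase_of_mem hb]; omega
        have hsplit : dotF s (x b) + ∑ c ∈ B.erase b, dotF s (x c) = dotL s r := by
          rw [htotal]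
          exact Finset.add_sum_erase B (fun c => dotF s (x c)) hb
        have hrest : ∑ c ∈ B.erase b, dotF s (x c) ≤ k * L := by
          calc ∑ c ∈ B.erase b, dotF s (x c) ≤ ∑ _c ∈ B.erase b, L :=
                Finset.sum_le_sum (fun c hc => hfit c (Finset.mem_of_mem_erase hc))
            _ = (B.erase b).card * L := by simp
            _ ≤ k * L := Nat.mul_le_mul_right _ hcard'
        have hneed : dotL s r - k * L ≤ dotF s (x b) := by omega
        have hP := allPatB_sound s r L _ _ _ (x b) hlen rfl hle (hfit b hb) hneed h
        rw [← hlen] at hP
        simp only [Bool.or_eq_true, Bool.not_eq_true'] at hP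
        rcases hP with hP | hP
        · rw [hlead] at hP
          exact Bool.noConfusion hP
        · refine ih (subV r (vec r.length (x b))) (by rw [length_subV]; exact hlen) hP
            (B.erase b) x hcard' (fun c hc => hfit c (Finset.mem_of_mem_erase hc)) ?_
          intro i hi
          have hi' : i < r.length := by omega
          rw [getD_subV _ _ _ hi', ← hsum i hi, ← Finset.add_sum_erase B (fun c => x c i) hb]
          omega

/-- The counting bound for an instance given by lists, in the form used in the statement. -/
theorem direct_bound (L K : ℕ) (s n : List ℕ) (hL : 0 < L) (hK : 0 < K)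
    (hn : n.length = s.length) (h : noPackB s L (K - 1) n = true)
    (m : ℕ) (x : Fin m → Fin s.length → ℕ)
    (hfit : ∀ b, ∑ i, ((s.get i : ℚ) / L) * (x b i : ℚ) ≤ 1)
    (hsum : ∀ i : Fin s.length, ∑ b, x b i = n.getD i 0) :
    K ≤ m := by
  by_contra hlt
  push Not at hlt
  refine noPackB_sound (α := Fin m) s L (K - 1) n hn h Finset.univ (fun b => extF (x b))
    (by simp; omega) ?_ ?_
  · intro b _
    rw [dotF_extF]
    have hb := hfit b
    have hL' : (0 : ℚ) < L := by exact_mod_cast hL
    have e : ∑ i, ((s.get i : ℚ) / L) * (x b i : ℚ)
        = ((∑ i, s.get i * x b i : ℕ) : ℚ) / L := by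
      push_cast
      rw [Finset.sum_div]
      apply Finset.sum_congr rfl
      intro i _
      ring
    rw [e, div_le_one hL'] at hb
    exact_mod_cast hb
  · intro i hi
    have := hsum ⟨i, hi⟩
    simp only [extF, hi, dif_pos]
    exact this

end Vale.Agent.BinPack
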