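import Vale.Agent.BinPack.Reduce2

/-!
A faster form of the packing check: the vector of multiplicities is kept as one natural number,
written in base `B`.
-/

namespace Vale.Agent.BinPack

/-- The number with the digits `l` in base `B`, lowest digit first. -/
def enc (B : ℕ) : List ℕ → ℕ
  | [] => 0
  | d :: l => d + B * enc B l

/-- `P` holds on every vector below the one encoded by `t`, of weight at most `cap` and at least
`need`, and positive at the first place where the encoded vector is positive (unless `started`).
The vector is passed to `P` by its code, together with its weight. -/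
def enumN (B : ℕ) (P : ℕ → ℕ → Bool) :
    List ℕ → ℕ → ℕ → ℕ → ℕ → ℕ → ℕ → ℕ → Bool → Bool
  | [], _, _, cur, fill, _, _, _, _ => P cur fill
  | a :: s, t, pw, cur, fill, cap, need, rem, started =>
      let d := t % B
      let t' := t / B
      let rem' := rem - a * d
      (List.range (d + 1)).all fun v =>
        (decide (v = 0) && !started && !decide (d = 0)) ||
        !decide (a * v ≤ cap) || decide (a * v + rem' < need) ||
          enumN B P s t' (pw * B) (cur + v * pw) (fill + a * v) (cap - a * v) (need - a * v) rem'
            (started || !decide (d = 0))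

/-- The packing check on encoded vectors; `tot` is the weight of the vector. -/
def noPN (s : List ℕ) (B L : ℕ) : ℕ → ℕ → ℕ → Bool
  | 0, r, _ => !decide (r = 0)
  | k + 1, r, tot =>
      decide ((k + 1) * L < tot) ||
        (!decide (r = 0) &&
          enumN B (fun c f => noPN s B L k (r - c) (tot - f)) s r 1 0 0 L (tot - k * L) tot false)

lemma enc_mod_div (B d : ℕ) (l : List ℕ) (hd : d < B) :
    (enc B (d :: l)) % B = d ∧ (enc B (d :: l)) / B = enc B l := by
  have hB : 0 < B := by omega
  simp only [enc]
  constructor
  · rw [Nat.add_mul_mod_self_left, Nat.mod_eq_of_lt hd]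
  · rw [Nat.add_mul_div_left _ _ hB, Nat.div_eq_of_lt hd, zero_add]

lemma lead_cons_of_pos {n : ℕ} (r : List ℕ) (v : ℕ) (c : List ℕ) (hn : n ≠ 0)
    (h : lead (n :: r) (v :: c) = true) : 1 ≤ v := by
  cases n with
  | zero => exact absurd rfl hn
  | succ n =>
    simpa [lead] using h

lemma enumN_sound (B : ℕ) (P : ℕ → ℕ → Bool) (s : List ℕ) :
    ∀ (r : List ℕ) (pw cur fill cap need rem : ℕ) (started : Bool) (y : ℕ → ℕ),
    r.length = s.length → (∀ a ∈ r, a < B) → rem = dotL s r →
    (∀ i < s.length, y i ≤ r.getD i 0) →
    dotF s y ≤ cap → need ≤ dotF s y →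
    (started = true ∨ lead r (vec s.length y) = true) →
    enumN B P s (enc B r) pw cur fill cap need rem started = true →
    P (cur + pw * enc B (vec s.length y)) (fill + dotF s y) = true := by
  induction s with
  | nil =>
    intro r pw cur fill cap need rem started y _ _ _ _ _ _ _ h
    simpa [enumN, vec, enc, dotF] using h
  | cons a s ih =>
    intro r pw cur fill cap need rem started y hlen hdig hrem hle hdot hneed hst h
    cases r with
    | nil => simp at hlen
    | cons n r =>
      have hnB : n < B := hdig n (by simp)
      obtain ⟨hm, hdv⟩ := enc_mod_div B n r hnB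
      simp only [enumN, hm, hdv, List.all_eq_true, List.mem_range, Bool.or_eq_true,
        Bool.and_eq_true, decide_eq_true_eq, Bool.not_eq_true', decide_eq_false_iff_not] at h
      have h0 : y 0 ≤ n := by simpa using hle 0 (by simp)
      have hd : a * y 0 + dotF s (fun i => y (i + 1)) ≤ cap := hdot
      have hn : need ≤ a * y 0 + dotF s (fun i => y (i + 1)) := hneed
      have hle' : ∀ i < s.length, (fun i => y (i + 1)) i ≤ r.getD i 0 :=
        fun i hi => by simpa using hle (i + 1) (by simpa using hi)
      have hlen' : r.length = s.length := by simpa using hlen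
      have hrem' : rem - a * n = dotL s r := by
        rw [hrem, dotL_eq_head]; omega
      have hbd := dotL_le_of_le s r (fun i => y (i + 1)) hlen' hle'
      rcases h (y 0) (by omega) with ((⟨⟨h1, h2⟩, h3⟩ | h1) | h1) | h1
      · exfalso
        rcases hst with hst | hst
        · rw [hst] at h2; exact Bool.noConfusion h2
        · have hv : vec (a :: s).length y = y 0 :: vec s.length (fun i => y (i + 1)) := by
            simp [vec]
          rw [hv] at hst
          have := lead_cons_of_pos r (y 0) _ h3 hst
          omega
      · exact absurd (by omega : a * y 0 ≤ cap) h1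
      · rw [hrem'] at h1
        omega
      · have hst' : (started || !decide (n = 0)) = true ∨
            lead r (vec s.length (fun i => y (i + 1))) = true := by
          rcases hst with hst | hst
          · left; simp [hst]
          · have hv : vec (a :: s).length y = y 0 :: vec s.length (fun i => y (i + 1)) := by
              simp [vec]
            rw [hv] at hst
            by_cases hn0 : n = 0
            · subst hn0
              right
              simpa [lead] using hst
            · left; simp [hn0]
        have := ih r (pw * B) (cur + y 0 * pw) (fill + a * y 0) (cap - a * y 0) (need - a * y 0)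
          (rem - a * n) (started || !decide (n = 0)) (fun i => y (i + 1)) hlen'
          (fun b hb => hdig b (by simp [hb])) hrem' hle' (by omega) (by omega) hst' h1
        have e1 : cur + y 0 * pw + pw * B * enc B (vec s.length (fun i => y (i + 1)))
            = cur + pw * enc B (vec (a :: s).length y) := by
          simp only [List.length_cons, vec, enc]
          ring
        have e2 : fill + a * y 0 + dotF s (fun i => y (i + 1)) = fill + dotF (a :: s) y := by
          simp only [dotF]
          ring
        rw [e1, e2] at this
        exact this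

lemma enc_subV (B : ℕ) (y : ℕ → ℕ) : ∀ (r : List ℕ), (∀ i < r.length, y i ≤ r.getD i 0) →
    enc B (subV r (vec r.length y)) + enc B (vec r.length y) = enc B r := by
  intro r
  induction r generalizing y with
  | nil => intro _; simp [subV, vec, enc]
  | cons n r ih =>
    intro h
    have h0 : y 0 ≤ n := by simpa using h 0 (by simp)
    have := ih (fun i => y (i + 1)) (fun i hi => by simpa using h (i + 1) (by simpa using hi))
    simp only [List.length_cons, vec, subV, enc]
    rw [← this]
    have h1 : n = (n - y 0) + y 0 := by omega
    conv_rhs => rw [h1]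
    ring

lemma dotL_subV (y : ℕ → ℕ) (s : List ℕ) : ∀ (r : List ℕ), r.length = s.length →
    (∀ i < r.length, y i ≤ r.getD i 0) →
    dotL s (subV r (vec r.length y)) + dotF s y = dotL s r := by
  induction s generalizing y with
  | nil =>
    intro r hl _
    have : r = [] := List.length_eq_zero_iff.mp (by simpa using hl)
    subst this
    simp [dotL, dotF, subV, vec]
  | cons a s ih =>
    intro r hl h
    cases r with
    | nil => simp at hl
    | cons n r =>
      have h0 : y 0 ≤ n := by simpa using h 0 (by simp)
      have := ih (fun i => y (i + 1)) r (by simpa using hl)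
        (fun i hi => by simpa using h (i + 1) (by simpa using hi))
      simp only [List.length_cons, vec, subV, dotL, dotF]
      have h1 : a * n = a * (n - y 0) + a * y 0 := by
        rw [← Nat.mul_add]; congr 1; omega
      omega

lemma enc_eq_zero (B : ℕ) : ∀ r : List ℕ, (∀ a ∈ r, a = 0) → enc B r = 0 := by
  intro r
  induction r with
  | nil => intro _; rfl
  | cons n r ih =>
    intro h
    have h0 : n = 0 := h n (by simp)
    have := ih (fun a ha => h a (by simp [ha]))
    simp [enc, h0, this]

lemma all_zero_of_sum_empty {α : Type} (r : List ℕ) (x : α → ℕ → ℕ)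
    (hsum : ∀ i < r.length, ∑ b ∈ (∅ : Finset α), x b i = r.getD i 0) : ∀ a ∈ r, a = 0 := by
  intro a ha
  obtain ⟨i, hi, rfl⟩ := List.getElem_of_mem ha
  have := hsum i hi
  simp only [Finset.sum_empty] at this
  rw [List.getD_eq_getElem _ _ hi] at this
  exact this.symm

/-- Soundness of the encoded packing check. -/
theorem noPN_sound {α : Type} [DecidableEq α] (s : List ℕ) (B L : ℕ) :
    ∀ (k : ℕ) (r : List ℕ), r.length = s.length → (∀ a ∈ r, a < B) →
    noPN s B L k (enc B r) (dotL s r) = true →
    ∀ (F : Finset α) (x : α → ℕ → ℕ), F.card ≤ k → (∀ b ∈ F, dotF s (x b) ≤ L) →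
      (∀ i < s.length, ∑ b ∈ F, x b i = r.getD i 0) → False := by
  intro k
  induction k with
  | zero =>
    intro r hlen _ h F x hcard _ hsum
    have hB : F = ∅ := Finset.card_eq_zero.mp (by omega)
    subst hB
    simp only [noPN, Bool.not_eq_true', decide_eq_false_iff_not] at h
    exact h (enc_eq_zero B r (all_zero_of_sum_empty r x (fun i hi => hsum i (by omega))))
  | succ k ih =>
    intro r hlen hdig h F x hcard hfit hsum
    have htotal : dotL s r = ∑ b ∈ F, dotF s (x b) := by
      rw [← dotF_getD s r hlen]
      have h1 : dotF s (fun i => r.getD i 0) = dotF s (fun i => ∑ b ∈ F, x b i) :=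
        dotF_congr s _ _ (fun i hi => (hsum i hi).symm)
      rw [h1, dotF_sum]
    have htot : dotL s r ≤ (k + 1) * L := by
      rw [htotal]
      calc ∑ b ∈ F, dotF s (x b) ≤ ∑ _b ∈ F, L := Finset.sum_le_sum hfit
        _ = F.card * L := by simp
        _ ≤ (k + 1) * L := Nat.mul_le_mul_right _ hcard
    simp only [noPN, Bool.or_eq_true, decide_eq_true_eq, Bool.and_eq_true, Bool.not_eq_true',
      decide_eq_false_iff_not] at h
    rcases h with h | ⟨hany, h⟩
    · omega
    · rcases F.eq_empty_or_nonempty with hB | hB
      · subst hB
        exact hany (enc_eq_zero B r (all_zero_of_sum_empty r x (fun i hi => hsum i (by omega))))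
      · obtain ⟨b, hb, hlead⟩ := exists_lead F hB r x (fun i hi => hsum i (by omega))
        have hle : ∀ i < s.length, x b i ≤ r.getD i 0 := by
          intro i hi
          rw [← hsum i hi]
          exact Finset.single_le_sum (f := fun c => x c i) (fun _ _ => Nat.zero_le _) hb
        have hcard' : (F.erase b).card ≤ k := by
          rw [Finset.card_erase_of_mem hb]; omega
        have hsplit : dotF s (x b) + ∑ c ∈ F.erase b, dotF s (x c) = dotL s r := by
          rw [htotal]
          exact Finset.add_sum_erase F (fun c => dotF s (x c)) hb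
        have hrest : ∑ c ∈ F.erase b, dotF s (x c) ≤ k * L := by
          calc ∑ c ∈ F.erase b, dotF s (x c) ≤ ∑ _c ∈ F.erase b, L :=
                Finset.sum_le_sum (fun c hc => hfit c (Finset.mem_of_mem_erase hc))
            _ = (F.erase b).card * L := by simp
            _ ≤ k * L := Nat.mul_le_mul_right _ hcard'
        have hneed : dotL s r - k * L ≤ dotF s (x b) := by omega
        have hlead' : lead r (vec s.length (x b)) = true := by
          rw [← hlen]; exact hlead
        have hP := enumN_sound B _ s r 1 0 0 L _ _ false (x b) hlen hdig rfl hle (hfit b hb) hneed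
          (Or.inr hlead') h
        simp only [zero_add, one_mul] at hP
        have hleR : ∀ i < r.length, x b i ≤ r.getD i 0 := fun i hi => hle i (by omega)
        have e1 := enc_subV B (x b) r hleR
        have e2 := dotL_subV (x b) s r hlen hleR
        have hvl : vec s.length (x b) = vec r.length (x b) := by rw [hlen]
        rw [hvl] at hP
        have hc : enc B r - enc B (vec r.length (x b)) = enc B (subV r (vec r.length (x b))) := by
          omega
        have hf : dotL s r - dotF s (x b) = dotL s (subV r (vec r.length (x b))) := by
          omega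
        rw [hc, hf] at hP
        refine ih (subV r (vec r.length (x b))) (by rw [length_subV]; exact hlen) ?_ hP
          (F.erase b) x hcard' (fun c hc => hfit c (Finset.mem_of_mem_erase hc)) ?_
        · intro a ha
          obtain ⟨i, hi, rfl⟩ := List.getElem_of_mem ha
          have hi' : i < r.length := by
            have := length_subV (x b) r
            omega
          have h5 := getD_subV (x b) r i hi'
          rw [List.getD_eq_getElem _ _ hi] at h5
          rw [h5]
          have h6 : r.getD i 0 < B := by
            rw [List.getD_eq_getElem _ _ hi']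
            exact hdig _ (List.getElem_mem hi')
          omega
        · intro i hi
          have hi' : i < r.length := by omega
          rw [getD_subV _ _ _ hi', ← hsum i hi, ← Finset.add_sum_erase F (fun c => x c i) hb]
          omega

/-- The final check for the bins without a big item, with the encoded packing check. -/
def leafN (L kJ am na : ℕ) (sJ : List ℕ) (base : ℕ) (r : List ℕ) (w : ℕ) : Bool :=
  (List.range (na + 1)).all fun n' =>
    decide (n' = 0) || decide (n' + w < na) ||
      noPN (sJ ++ [am]) base L kJ (enc base (r ++ [n'])) (dotL (sJ ++ [am]) (r ++ [n']))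

/-- The reduction with the encoded check, in terms of counts indexed by natural numbers. -/
theorem reduce3 {α : Type} [DecidableEq α]
    (L kJ bm am base : ℕ) (sB sA sJ nB nA nJ : List ℕ) (ham0 : 0 < am)
    (hdJ : ∀ a ∈ nJ, a < base) (hdA : nA.sum < base)
    (hnB : nB.length = sB.length) (hnA : nA.length = sA.length) (hnJ : nJ.length = sJ.length)
    (hbm : ∀ a ∈ sB, bm ≤ a) (ham : ∀ a ∈ sA, am ≤ a) (h2 : L < 2 * bm)
    (hT : noPackB (sB ++ sA) L nB.sum (nB ++ nA) = true)
    (hC : allB sJ (L - bm) am nB.sum nJ 0 (leafN L kJ am nA.sum sJ base) = true)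
    (B : Finset α) (x : α → ℕ → ℕ) (hcard : B.card ≤ nB.sum + kJ)
    (hfit : ∀ b ∈ B, dotF (sB ++ (sA ++ sJ)) (x b) ≤ L)
    (hsum : ∀ i < (sB ++ (sA ++ sJ)).length,
      ∑ b ∈ B, x b i = (nB ++ (nA ++ nJ)).getD i 0) : False := by
  classical
  have hnb : sB.length = nB.length := hnB.symm
  have hna : sA.length = nA.length := hnA.symm
  obtain ⟨nb, hnbv⟩ : ∃ n, n = sB.length := ⟨_, rfl⟩
  obtain ⟨na, hnav⟩ : ∃ n, n = sA.length := ⟨_, rfl⟩
  have hsplit : ∀ y : ℕ → ℕ, dotF (sB ++ (sA ++ sJ)) y =
      dotF sB y + (dotF sA (fun i => y (i + nb)) + dotF sJ (fun i => y (i + na + nb))) := by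
    intro y
    rw [dotF_append, dotF_append, hnbv, hnav]
  have hlen : (sB ++ (sA ++ sJ)).length = nb + (na + sJ.length) := by
    simp [hnbv, hnav]
  have hsum0 : ∑ b ∈ B, sumF nb (x b) = nB.sum := by
    rw [← sumF_sum, ← sumF_getD nB, hnB, ← hnbv]
    apply sumF_congr
    intro i hi
    rw [hsum i (by omega), List.getD_append _ _ _ _ (by omega)]
  have hsum1 : ∑ b ∈ B, sumF na (fun j => x b (j + nb)) = nA.sum := by
    have := sumF_sum B (fun b j => x b (j + nb)) na
    rw [← this, ← sumF_getD nA, hnA, ← hnav]
    apply sumF_congr
    intro i hi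
    rw [hsum (i + nb) (by omega), List.getD_append_right _ _ _ _ (by omega),
      List.getD_append _ _ _ _ (by omega)]
    congr 1
    omega
  have hsum2 : ∀ i < sJ.length, ∑ b ∈ B, x b (i + na + nb) = nJ.getD i 0 := by
    intro i hi
    rw [hsum (i + na + nb) (by omega), List.getD_append_right _ _ _ _ (by omega),
      List.getD_append_right _ _ _ _ (by omega)]
    congr 1
    omega
  have hbmle : ∀ y : ℕ → ℕ, bm * sumF nb y ≤ dotF sB y := by
    intro y
    rw [hnbv]
    exact mul_sumF_le bm sB hbm y
  have hamle : ∀ y : ℕ → ℕ, am * sumF na y ≤ dotF sA y := by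
    intro y
    rw [hnav]
    exact mul_sumF_le am sA ham y
  have hle1 : ∀ b ∈ B, sumF nb (x b) ≤ 1 := by
    intro b hb
    by_contra hne
    have h1 := hbmle (x b)
    have h3 := hfit b hb
    rw [hsplit] at h3
    have h4 : bm * 2 ≤ bm * sumF nb (x b) := Nat.mul_le_mul_left _ (by omega)
    omega
  set B' := B.filter (fun b => 1 ≤ sumF nb (x b)) with hB'
  have hB'sub : B' ⊆ B := Finset.filter_subset _ _
  have hcardB' : B'.card = nB.sum := by
    rw [← hsum0, hB', Finset.card_filter]
    apply Finset.sum_congr rfl
    intro b hb
    have := hle1 b hb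
    by_cases hy : 1 ≤ sumF nb (x b)
    · simp only [hy, if_true]; omega
    · simp only [hy, if_false]; omega
  have hout0 : ∀ b ∈ B \ B', sumF nb (x b) = 0 := by
    intro b hb
    obtain ⟨hbB, hbn⟩ := Finset.mem_sdiff.mp hb
    by_contra hne
    exact hbn (Finset.mem_filter.mpr ⟨hbB, Nat.one_le_iff_ne_zero.mpr hne⟩)
  have hcardout : (B \ B').card ≤ kJ := by
    have := Finset.card_sdiff_add_card_eq_card hB'sub
    omega
  -- the small items outside
  obtain ⟨n', hn'⟩ : ∃ n', n' = ∑ b ∈ B \ B', sumF na (fun j => x b (j + nb)) := ⟨_, rfl⟩
  have hsplitA : n' + ∑ b ∈ B', sumF na (fun j => x b (j + nb)) = nA.sum := by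
    rw [hn', Finset.sum_sdiff hB'sub, hsum1]
  by_cases hn0 : n' = 0
  · -- all small items lie next to big items
    refine noPackB_sound (sB ++ sA) L nB.sum (nB ++ nA) (by simp only [List.length_append]; omega)
      hT B' x hcardB'.le ?_ ?_
    · intro b hb
      have h3 := hfit b (hB'sub hb)
      rw [hsplit] at h3
      rw [dotF_append, ← hnbv]
      omega
    · intro i hi
      have hi' : i < nb + na := by
        simpa only [List.length_append, hnbv, hnav] using hi
      have hzero : ∀ b ∈ B \ B', sumF na (fun j => x b (j + nb)) = 0 := by
        intro b hb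
        rw [hn'] at hn0
        exact (Finset.sum_eq_zero_iff.mp hn0) b hb
      have hout : ∀ b ∈ B \ B', x b i = 0 := by
        intro b hb
        by_cases hin : i < nb
        · exact sumF_eq_zero nb (x b) (hout0 b hb) i hin
        · have h4 := sumF_eq_zero na _ (hzero b hb) (i - nb) (by omega)
          simpa only [Nat.sub_add_cancel (Nat.le_of_not_lt hin)] using h4
      have hs := hsum i (by omega)
      rw [← Finset.sum_sdiff hB'sub, Finset.sum_eq_zero hout, zero_add] at hs
      rw [hs]
      have e1 : nB.length = nb := by omega
      have e2 : nA.length = na := by omega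
      by_cases hin : i < nb
      · have h5 : i < nB.length := by omega
        rw [List.getD_append _ _ _ _ h5, List.getD_append _ _ _ _ h5]
      · have h5 : nB.length ≤ i := by omega
        have h6 : i - nB.length < nA.length := by omega
        rw [List.getD_append_right _ _ _ _ h5, List.getD_append_right _ _ _ _ h5,
          List.getD_append _ _ _ _ h6]
  · -- some small item lies in a bin without a big item
    have hbroom : ∀ b ∈ B', am * sumF na (fun j => x b (j + nb)) +
        dotF sJ (fun i => x b (i + na + nb)) ≤ L - bm := by
      intro b hb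
      obtain ⟨hbB, hb1⟩ := Finset.mem_filter.mp hb
      have h1 := hbmle (x b)
      have h3 := hfit b hbB
      rw [hsplit] at h3
      have h4 := hamle (fun j => x b (j + nb))
      have h5 : bm * 1 ≤ bm * sumF nb (x b) := Nat.mul_le_mul_left _ hb1
      omega
    have hleJ : ∀ i < sJ.length, ∑ b ∈ B', x b (i + na + nb) ≤ nJ.getD i 0 := by
      intro i hi
      rw [← hsum2 i hi]
      exact Finset.sum_le_sum_of_subset_of_nonneg hB'sub (fun _ _ _ => Nat.zero_le _)
    obtain ⟨r', w', hP, hr'len, hr', hw'⟩ := allB_sound (α := α) sJ (L - bm) am ham0 nB.sum nJ 0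
      (leafN L kJ am nA.sum sJ base) hnJ hC B' (fun b i => x b (i + na + nb))
      (fun b => sumF na (fun j => x b (j + nb))) hcardB' hbroom hleJ
    simp only [leafN, List.all_eq_true, List.mem_range, Bool.or_eq_true, decide_eq_true_eq] at hP
    have hn'le : n' < nA.sum + 1 := by omega
    rcases hP n' hn'le with (h6 | h6) | h6
    · exact hn0 h6
    · omega
    · -- the rest
      let u : α → ℕ → ℕ := fun b i =>
        if i < sJ.length then x b (i + na + nb) else sumF na (fun j => x b (j + nb))
      have hlenr : (r' ++ [n']).length = (sJ ++ [am]).length := by simp [hr'len]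
      have hdig : ∀ a ∈ r' ++ [n'], a < base := by
        intro a ha
        rcases List.mem_append.mp ha with ha | ha
        · obtain ⟨i, hi, rfl⟩ := List.getElem_of_mem ha
          have hi2 : i < sJ.length := by omega
          have h8 := hr' i hi2
          rw [List.getD_eq_getElem _ _ hi] at h8
          rw [h8]
          have h9 : nJ.getD i 0 < base := by
            rw [List.getD_eq_getElem _ _ (by omega)]
            exact hdJ _ (List.getElem_mem _)
          omega
        · have : a = n' := by simpa using ha
          omega
      refine noPN_sound (sJ ++ [am]) base L kJ (r' ++ [n']) hlenr hdig h6 (B \ B') u hcardout ?_ ?_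
      · intro b hb
        have hbB := (Finset.mem_sdiff.mp hb).1
        have h3 := hfit b hbB
        rw [hsplit] at h3
        have h4 := hamle (fun j => x b (j + nb))
        rw [dotF_append]
        have e1 : dotF sJ (u b) = dotF sJ (fun i => x b (i + na + nb)) := by
          apply dotF_congr
          intro i hi
          simp [u, hi]
        have e2 : dotF [am] (fun i => u b (i + sJ.length)) =
            am * sumF na (fun j => x b (j + nb)) := by
          simp [dotF, u]
        rw [e1, e2]
        omega
      · intro i hi
        have hi1 : i < sJ.length + 1 := by simpa using hi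
        by_cases hi2 : i < sJ.length
        · have h7 := hr' i hi2
          rw [List.getD_append _ _ _ _ (by omega), h7, ← hsum2 i hi2, ← Finset.sum_sdiff hB'sub]
          have e3 : ∑ b ∈ B \ B', u b i = ∑ b ∈ B \ B', x b (i + na + nb) := by
            apply Finset.sum_congr rfl
            intro b _
            simp [u, hi2]
          rw [e3]
          omega
        · have hi3 : i = sJ.length := by omega
          subst hi3
          have e3 : ∑ b ∈ B \ B', u b sJ.length = n' := by
            rw [hn']
            apply Finset.sum_congr rfl
            intro b _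
            simp [u]
          rw [e3, List.getD_append_right _ _ _ _ (by omega)]
          have : sJ.length - r'.length = 0 := by omega
          simp [this]

/-- The counting bound for an instance given by lists, in the form used in the statement. -/
theorem reduce3_bound (L kJ bm am base : ℕ) (sB sA sJ nB nA nJ : List ℕ) (hL : 0 < L) (ham0 : 0 < am)
    (hdJ : ∀ a ∈ nJ, a < base) (hdA : nA.sum < base)
    (hnB : nB.length = sB.length) (hnA : nA.length = sA.length) (hnJ : nJ.length = sJ.length)
    (hbm : ∀ a ∈ sB, bm ≤ a) (ham : ∀ a ∈ sA, am ≤ a) (h2 : L < 2 * bm)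
    (hT : noPackB (sB ++ sA) L nB.sum (nB ++ nA) = true)
    (hC : allB sJ (L - bm) am nB.sum nJ 0 (leafN L kJ am nA.sum sJ base) = true)
    (s n : List ℕ) (hs : s = sB ++ (sA ++ sJ)) (hn : n = nB ++ (nA ++ nJ))
    (m : ℕ) (x : Fin m → Fin s.length → ℕ)
    (hfit : ∀ b, ∑ i, ((s.get i : ℚ) / L) * (x b i : ℚ) ≤ 1)
    (hsum : ∀ i : Fin s.length, ∑ b, x b i = n.getD i 0) :
    nB.sum + kJ + 1 ≤ m := by
  subst hs hn
  by_contra hlt
  push Not at hlt
  refine reduce3 (α := Fin m) L kJ bm am base sB sA sJ nB nA nJ ham0 hdJ hdA hnB hnA hnJ hbm ham h2 hT hC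
    Finset.univ (fun b => extF (x b)) (by simp; omega) ?_ ?_
  · intro b _
    rw [dotF_extF]
    have hb := hfit b
    have hL' : (0 : ℚ) < L := by exact_mod_cast hL
    have e : ∑ i, (((sB ++ (sA ++ sJ)).get i : ℕ) : ℚ) / L * (x b i : ℚ)
        = ((∑ i, (sB ++ (sA ++ sJ)).get i * x b i : ℕ) : ℚ) / L := by
      push_cast
      rw [Finset.sum_div]
      apply Finset.sum_congr rfl
      intro i _
      ring
    rw [e, div_le_one hL'] at hb
    exact_mod_cast hb
  · intro i hi
    have := hsum ⟨i, hi⟩
    simp only [extF, hi, dif_pos]
    exact this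

end Vale.Agent.BinPack
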