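import Vale.Agent.BinPack.Compose

/-!
From list data to a statement about a bin packing instance, its packings and its configuration
linear program.
-/

namespace Vale.Agent.BinPack

lemma sum_fin_get {β : Type} (l : List β) (f : β → ℚ) :
    ∑ j : Fin l.length, f (l.get j) = (l.map f).sum := by
  induction l with
  | nil => simp
  | cons a l ih =>
    have := Fin.sum_univ_succ (n := l.length) (fun j : Fin (l.length + 1) => f ((a :: l).get j))
    simp only [List.map_cons, List.sum_cons]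
    rw [← ih]
    exact this

lemma sum_map_div {β : Type} (Den : ℕ) (l : List β) (f g : β → ℕ) :
    (l.map (fun p => ((f p : ℕ) : ℚ) / Den * ((g p : ℕ) : ℚ))).sum
      = (((l.map (fun p => f p * g p)).sum : ℕ) : ℚ) / Den := by
  induction l with
  | nil => simp
  | cons a l ih =>
    simp only [List.map_cons, List.sum_cons, ih]
    push_cast
    ring

lemma dot_rat (s row : List ℕ) (hlen : row.length = s.length) (L : ℕ) (hL : 0 < L)
    (h : dotL s row ≤ L) :
    ∑ i : Fin s.length, ((s.get i : ℚ) / L) * ((row.getD i 0 : ℕ) : ℚ) ≤ 1 := by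
  have hL' : (0 : ℚ) < L := by exact_mod_cast hL
  have e : ∑ i : Fin s.length, ((s.get i : ℚ) / L) * ((row.getD i 0 : ℕ) : ℚ)
      = ((∑ i : Fin s.length, s.get i * row.getD i 0 : ℕ) : ℚ) / L := by
    push_cast
    rw [Finset.sum_div]
    apply Finset.sum_congr rfl
    intro i _
    ring
  rw [e, div_le_one hL']
  rw [← dotF_extF s (fun i => row.getD i 0)] at *
  have e2 : dotF s (extF (fun i : Fin s.length => row.getD i 0)) = dotL s row := by
    rw [← dotF_getD s row hlen]
    apply dotF_congr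
    intro i hi
    simp [extF, hi]
  rw [e2]
  exact_mod_cast h

/-- The target statement for the gap `q`, from the list data and the checks. -/
theorem mk_result (q : ℚ) (L : ℕ) (s n : List ℕ) (sol : List (ℕ × List ℕ)) (Den V K : ℕ)
    (hL : 0 < L) (hDen : 0 < Den)
    (hpos : ∀ a ∈ s, 0 < a ∧ a ≤ L) (hnd : s.Nodup) (hnlen : n.length = s.length)
    (hnpos : ∀ a ∈ n, 0 < a)
    (hK : ∀ (m : ℕ) (x : Fin m → Fin s.length → ℕ),
      (∀ b, ∑ i, ((s.get i : ℚ) / L) * (x b i : ℚ) ≤ 1) →
      (∀ i : Fin s.length, ∑ b, x b i = n.getD i 0) → K ≤ m)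
    (hsol : ∀ p ∈ sol, dotL s p.2 ≤ L ∧ p.2.length = s.length)
    (hcover : ∀ i < s.length, n.getD i 0 * Den ≤ (sol.map (fun p => p.1 * p.2.getD i 0)).sum)
    (hV : (sol.map (fun p => p.1)).sum = V)
    (hgap : q < (K : ℚ) - (V : ℚ) / Den) :
    ∃ (t : ℕ) (σ : Fin t → ℚ) (b : Fin t → ℕ) (K : ℕ) (v : ℚ),
      (∀ i, 0 < σ i ∧ σ i ≤ 1) ∧ Function.Injective σ ∧ (∀ i, 0 < b i) ∧
      (∀ (m : ℕ) (x : Fin m → Fin t → ℕ),
        (∀ j, ∑ i, σ i * (x j i : ℚ) ≤ 1) → (∀ i, ∑ j, x j i = b i) → K ≤ m) ∧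
      (∃ (m : ℕ) (c : Fin m → Fin t → ℕ) (z : Fin m → ℚ),
        (∀ j, ∑ i, σ i * (c j i : ℚ) ≤ 1) ∧ (∀ j, 0 ≤ z j) ∧
        (∀ i, (b i : ℚ) ≤ ∑ j, z j * (c j i : ℚ)) ∧ ∑ j, z j = v) ∧
      q < (K : ℚ) - v := by
  have hL' : (0 : ℚ) < L := by exact_mod_cast hL
  have hDen' : (0 : ℚ) < Den := by exact_mod_cast hDen
  refine ⟨s.length, fun i => (s.get i : ℚ) / L, fun i => n.getD i 0, K, (V : ℚ) / Den,
    ?_, ?_, ?_, hK, ⟨sol.length, fun j i => (sol.get j).2.getD i 0,
      fun j => ((sol.get j).1 : ℚ) / Den, ?_, ?_, ?_, ?_⟩, hgap⟩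
  · intro i
    have h := hpos (s.get i) (List.get_mem s i)
    constructor
    · have : (0 : ℚ) < s.get i := by exact_mod_cast h.1
      exact div_pos this hL'
    · rw [div_le_one hL']
      exact_mod_cast h.2
  · intro i j hij
    simp only at hij
    have h2 : (s.get i : ℚ) = s.get j := by
      field_simp at hij
      exact hij
    have h3 : s.get i = s.get j := by exact_mod_cast h2
    exact (List.Nodup.get_inj_iff hnd).mp h3
  · intro i
    have hi : (i : ℕ) < n.length := by rw [hnlen]; exact i.isLt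
    have := hnpos n[(i : ℕ)] (List.getElem_mem hi)
    simp only
    rw [List.getD_eq_getElem _ _ hi]
    exact this
  · intro j
    have h := hsol (sol.get j) (List.get_mem sol j)
    exact dot_rat s _ h.2 L hL h.1
  · intro j
    positivity
  · intro i
    have h := hcover i i.isLt
    have e : ∑ j : Fin sol.length, ((sol.get j).1 : ℚ) / Den * (((sol.get j).2.getD i 0 : ℕ) : ℚ)
        = (((sol.map (fun p => p.1 * p.2.getD i 0)).sum : ℕ) : ℚ) / Den := by
      rw [sum_fin_get sol (fun p => (p.1 : ℚ) / Den * ((p.2.getD i 0 : ℕ) : ℚ))]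
      exact sum_map_div Den sol _ _
    rw [e, le_div_iff₀ hDen']
    exact_mod_cast h
  · rw [sum_fin_get sol (fun p => (p.1 : ℚ) / Den)]
    have := sum_map_div Den sol (fun p => p.1) (fun _ => 1)
    simp only [Nat.cast_one, mul_one] at this
    rw [this, hV]

end Vale.Agent.BinPack
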