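import Vale.Agent.BinPack.Fast

namespace Vale.Agent.BinPack.Gap1Data

/-- Sizes of the big items, in units of one over 29000000. -/
def sB : List ℕ := [21002004, 21002000, 21001998]
/-- Multiplicities of the big items. -/
def nB : List ℕ := [1, 1, 1]
/-- Sizes of the small items. -/
def sA : List ℕ := [3998997, 3998998, 3998999, 3999000, 3999001, 3999003]
/-- Multiplicities of the small items. -/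
def nA : List ℕ := [1, 1, 1, 1, 1, 1]
/-- Sizes of the further items. -/
def sJ : List ℕ := [12801200, 12598700, 12500100, 11399000, 10899100, 9999800, 9801000, 9699800, 9598400, 9499300, 9498500, 9001300, 8999300, 8700600, 8398600, 8198900, 3999100]
/-- Multiplicities of the further items. -/
def nJ : List ℕ := [1, 1, 1, 1, 1, 1, 1, 1, 1, 1, 1, 1, 1, 1, 1, 1, 1]
/-- All sizes. -/
def s : List ℕ := sB ++ (sA ++ sJ)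
/-- All multiplicities. -/
def n : List ℕ := nB ++ (nA ++ nJ)
/-- The configurations of a fractional solution, with weights over 326. -/
def sol : List (ℕ × List ℕ) := [
  (163, [1, 0, 0, 0, 2, 0, 0, 0, 0, 0, 0, 0, 0, 0, 0, 0, 0, 0, 0, 0, 0, 0, 0, 0, 0, 0]),
  (11, [0, 0, 0, 0, 0, 0, 0, 0, 0, 0, 1, 0, 1, 0, 0, 0, 0, 0, 0, 0, 0, 0, 0, 0, 0, 1]),
  (163, [0, 0, 0, 0, 0, 0, 0, 0, 0, 0, 0, 2, 0, 0, 0, 0, 0, 0, 0, 0, 0, 0, 0, 0, 0, 1]),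
  (163, [0, 0, 0, 0, 0, 0, 0, 0, 0, 2, 0, 0, 0, 0, 0, 0, 0, 0, 0, 0, 0, 0, 0, 0, 0, 0]),
  (44, [0, 0, 0, 0, 0, 0, 0, 0, 0, 0, 0, 0, 0, 0, 2, 0, 0, 0, 0, 0, 0, 1, 0, 0, 0, 0]),
  (163, [0, 1, 0, 0, 0, 0, 2, 0, 0, 0, 0, 0, 0, 0, 0, 0, 0, 0, 0, 0, 0, 0, 0, 0, 0, 0]),
  (163, [1, 0, 0, 1, 0, 1, 0, 0, 0, 0, 0, 0, 0, 0, 0, 0, 0, 0, 0, 0, 0, 0, 0, 0, 0, 0]),
  (163, [0, 0, 1, 0, 0, 1, 0, 0, 1, 0, 0, 0, 0, 0, 0, 0, 0, 0, 0, 0, 0, 0, 0, 0, 0, 0]),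
  (26, [0, 0, 0, 0, 0, 0, 0, 0, 0, 0, 0, 0, 0, 0, 0, 0, 2, 1, 0, 0, 0, 0, 0, 0, 0, 0]),
  (150, [0, 0, 0, 0, 0, 0, 0, 0, 0, 0, 0, 0, 0, 0, 0, 1, 0, 2, 0, 0, 0, 0, 0, 0, 0, 0]),
  (163, [0, 0, 0, 0, 0, 0, 0, 0, 0, 0, 1, 0, 0, 0, 0, 0, 0, 0, 0, 0, 0, 0, 0, 0, 2, 0]),
  (75, [0, 0, 0, 0, 0, 0, 0, 0, 0, 0, 0, 0, 0, 0, 1, 0, 0, 0, 0, 2, 0, 0, 0, 0, 0, 0]),
  (65, [0, 0, 0, 0, 0, 0, 0, 0, 0, 0, 0, 0, 0, 1, 0, 0, 0, 0, 0, 0, 0, 2, 0, 0, 0, 0]),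
  (176, [0, 0, 0, 0, 0, 0, 0, 0, 0, 0, 0, 0, 0, 0, 0, 1, 1, 0, 0, 1, 0, 0, 0, 0, 0, 0]),
  (163, [0, 0, 0, 0, 0, 0, 0, 0, 0, 0, 0, 0, 1, 0, 0, 0, 0, 0, 0, 0, 0, 0, 2, 0, 0, 0]),
  (152, [0, 0, 0, 0, 0, 0, 0, 0, 0, 0, 0, 0, 1, 0, 0, 0, 0, 0, 0, 0, 0, 1, 0, 1, 0, 0]),
  (98, [0, 0, 0, 0, 0, 0, 0, 0, 0, 0, 0, 0, 0, 1, 0, 0, 1, 0, 0, 0, 0, 0, 0, 1, 0, 0]),
  (163, [0, 0, 0, 0, 0, 0, 0, 0, 0, 0, 0, 0, 0, 1, 0, 0, 0, 0, 0, 0, 2, 0, 0, 0, 0, 0]),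
  (163, [0, 0, 0, 0, 0, 0, 0, 0, 0, 0, 0, 0, 0, 0, 1, 0, 0, 0, 2, 0, 0, 0, 0, 0, 0, 0]),
  (76, [0, 0, 0, 0, 0, 0, 0, 0, 0, 0, 1, 0, 0, 0, 0, 0, 0, 0, 0, 0, 0, 0, 0, 1, 0, 2]),
  (163, [0, 0, 1, 0, 0, 0, 0, 2, 0, 0, 0, 0, 0, 0, 0, 0, 0, 0, 0, 0, 0, 0, 0, 0, 0, 0]),
  (38, [0, 0, 0, 0, 0, 0, 0, 0, 0, 0, 2, 0, 0, 0, 0, 0, 0, 0, 0, 0, 0, 0, 0, 0, 0, 0]),
  (163, [0, 1, 0, 1, 0, 0, 0, 0, 1, 0, 0, 0, 0, 0, 0, 0, 0, 0, 0, 0, 0, 0, 0, 0, 0, 0])]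

theorem checkT : noPackB (sB ++ sA) 29000000 nB.sum (nB ++ nA) = true := by decide +kernel

set_option maxHeartbeats 0 in
theorem checkC : allB sJ (29000000 - 21001998) 3998997 nB.sum nJ 0 (leafN 29000000 6 3998997 nA.sum sJ 7) = true := by
  decide +kernel

theorem packing (m : ℕ) (x : Fin m → Fin s.length → ℕ)
    (hfit : ∀ b, ∑ i, ((s.get i : ℚ) / (29000000 : ℕ)) * (x b i : ℚ) ≤ 1)
    (hsum : ∀ i : Fin s.length, ∑ b, x b i = n.getD i 0) : 10 ≤ m :=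
  reduce3_bound 29000000 6 21001998 3998997 7 sB sA sJ nB nA nJ (by norm_num) (by norm_num) (by decide +kernel) (by decide +kernel) (by decide +kernel)
    (by decide +kernel) (by decide +kernel) (by decide +kernel) (by decide +kernel) (by norm_num)
    checkT checkC s n rfl rfl m x hfit hsum

/-- The gap statement. -/
theorem gap : ∃ (t : ℕ) (σ : Fin t → ℚ) (b : Fin t → ℕ) (K : ℕ) (v : ℚ),
      (∀ i, 0 < σ i ∧ σ i ≤ 1) ∧ Function.Injective σ ∧ (∀ i, 0 < b i) ∧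
      (∀ (m : ℕ) (x : Fin m → Fin t → ℕ),
        (∀ j, ∑ i, σ i * (x j i : ℚ) ≤ 1) → (∀ i, ∑ j, x j i = b i) → K ≤ m) ∧
      (∃ (m : ℕ) (c : Fin m → Fin t → ℕ) (z : Fin m → ℚ),
        (∀ j, ∑ i, σ i * (c j i : ℚ) ≤ 1) ∧ (∀ j, 0 ≤ z j) ∧
        (∀ i, (b i : ℚ) ≤ ∑ j, z j * (c j i : ℚ)) ∧ ∑ j, z j = v) ∧
      ((241/200 : ℚ)) < (K : ℚ) - v :=
  mk_result (241/200 : ℚ) 29000000 s n sol 326 2867 10 (by norm_num) (by norm_num)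
    (by decide +kernel) (by decide +kernel) (by decide +kernel) (by decide +kernel)
    packing (by decide +kernel) (by decide +kernel) (by decide +kernel) (by norm_num)

end Vale.Agent.BinPack.Gap1Data
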