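import Vale.Agent.BinPack.Fast

namespace Vale.Agent.BinPack.Gap3Data

/-- Sizes of the big items, in units of one over 174000000. -/
def sB : List ℕ := [126602804, 126602800, 126602798]
/-- Multiplicities of the big items. -/
def nB : List ℕ := [1, 1, 1]
/-- Sizes of the small items. -/
def sA : List ℕ := [23698597, 23698598, 23698599, 23698600, 23698601, 23698603]
/-- Multiplicities of the small items. -/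
def nA : List ℕ := [1, 1, 1, 1, 1, 1]
/-- Sizes of the further items. -/
def sJ : List ℕ := [86999000, 75599100, 75000200, 68200400, 67600100, 67299700, 64399400, 58800100, 58400000, 57998700, 57799800, 54599000, 54598700, 53299800, 53199000, 52099500, 50800400, 48999200, 47398900, 23698700]
/-- Multiplicities of the further items. -/
def nJ : List ℕ := [1, 1, 1, 1, 1, 1, 1, 1, 1, 1, 1, 1, 1, 1, 1, 1, 1, 1, 1, 1]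
/-- All sizes. -/
def s : List ℕ := sB ++ (sA ++ sJ)
/-- All multiplicities. -/
def n : List ℕ := nB ++ (nA ++ nJ)
/-- The configurations of a fractional solution, with weights over 384. -/
def sol : List (ℕ × List ℕ) := [
  (128, [0, 0, 0, 0, 0, 0, 0, 0, 0, 0, 0, 0, 1, 0, 0, 0, 0, 0, 0, 0, 0, 0, 1, 0, 1, 0, 0, 0, 0]),
  (192, [1, 0, 0, 0, 2, 0, 0, 0, 0, 0, 0, 0, 0, 0, 0, 0, 0, 0, 0, 0, 0, 0, 0, 0, 0, 0, 0, 0, 0]),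
  (45, [0, 0, 0, 0, 0, 0, 0, 0, 0, 0, 0, 0, 0, 0, 0, 1, 0, 0, 0, 0, 2, 0, 0, 0, 0, 0, 0, 0, 0]),
  (192, [0, 0, 0, 0, 0, 0, 0, 0, 0, 2, 0, 0, 0, 0, 0, 0, 0, 0, 0, 0, 0, 0, 0, 0, 0, 0, 0, 0, 0]),
  (38, [0, 0, 0, 0, 0, 0, 0, 0, 0, 0, 0, 0, 0, 0, 0, 0, 2, 0, 0, 0, 1, 0, 0, 0, 0, 0, 0, 0, 0]),
  (192, [0, 0, 0, 0, 0, 0, 0, 0, 0, 0, 0, 2, 0, 0, 0, 0, 0, 0, 0, 0, 0, 0, 0, 0, 0, 0, 0, 0, 1]),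
  (66, [0, 0, 0, 0, 0, 0, 0, 0, 0, 0, 1, 0, 0, 0, 0, 0, 0, 0, 0, 0, 0, 0, 0, 0, 0, 1, 0, 0, 2]),
  (66, [0, 0, 0, 0, 0, 0, 0, 0, 0, 0, 1, 0, 0, 0, 0, 0, 0, 0, 0, 0, 0, 0, 0, 0, 0, 1, 0, 1, 0]),
  (192, [0, 0, 0, 0, 0, 0, 0, 0, 0, 0, 0, 0, 0, 0, 0, 0, 0, 1, 0, 2, 0, 0, 0, 0, 0, 0, 0, 0, 0]),
  (70, [0, 0, 0, 0, 0, 0, 0, 0, 0, 0, 0, 0, 1, 0, 0, 0, 0, 0, 0, 0, 0, 1, 0, 0, 0, 1, 0, 0, 0]),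
  (192, [0, 0, 0, 0, 0, 0, 0, 0, 0, 0, 1, 0, 0, 0, 0, 0, 0, 0, 0, 0, 0, 0, 0, 0, 0, 0, 2, 0, 0]),
  (192, [0, 0, 0, 0, 0, 0, 0, 0, 0, 0, 0, 0, 0, 1, 0, 0, 0, 0, 0, 0, 0, 0, 0, 2, 0, 0, 0, 0, 0]),
  (128, [0, 0, 0, 0, 0, 0, 0, 0, 0, 0, 0, 0, 0, 0, 0, 0, 0, 0, 3, 0, 0, 0, 0, 0, 0, 0, 0, 0, 0]),
  (116, [0, 0, 0, 0, 0, 0, 0, 0, 0, 0, 0, 0, 0, 0, 0, 1, 1, 0, 0, 0, 0, 0, 0, 0, 0, 1, 0, 0, 0]),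
  (192, [1, 0, 0, 1, 0, 1, 0, 0, 0, 0, 0, 0, 0, 0, 0, 0, 0, 0, 0, 0, 0, 0, 0, 0, 0, 0, 0, 0, 0]),
  (157, [0, 0, 0, 0, 0, 0, 0, 0, 0, 0, 0, 0, 0, 0, 0, 1, 0, 0, 0, 0, 0, 2, 0, 0, 0, 0, 0, 0, 0]),
  (60, [0, 0, 0, 0, 0, 0, 0, 0, 0, 0, 1, 0, 1, 0, 0, 0, 0, 0, 0, 0, 0, 0, 0, 0, 0, 0, 0, 0, 1]),
  (192, [0, 1, 0, 0, 0, 0, 2, 0, 0, 0, 0, 0, 0, 0, 0, 0, 0, 0, 0, 0, 0, 0, 0, 0, 0, 0, 0, 0, 0]),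
  (256, [0, 0, 0, 0, 0, 0, 0, 0, 0, 0, 0, 0, 0, 0, 1, 0, 0, 0, 0, 0, 1, 0, 0, 0, 1, 0, 0, 0, 0]),
  (128, [0, 0, 0, 0, 0, 0, 0, 0, 0, 0, 0, 0, 0, 0, 1, 0, 0, 0, 0, 0, 0, 0, 2, 0, 0, 0, 0, 0, 0]),
  (192, [0, 0, 0, 0, 0, 0, 0, 0, 0, 0, 0, 0, 0, 1, 0, 0, 1, 0, 0, 0, 0, 0, 0, 0, 0, 0, 0, 1, 0]),
  (66, [0, 0, 0, 0, 0, 0, 0, 0, 0, 0, 0, 0, 0, 0, 0, 1, 0, 1, 0, 0, 0, 0, 0, 0, 0, 1, 0, 0, 0]),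
  (126, [0, 0, 0, 0, 0, 0, 0, 0, 0, 0, 0, 0, 1, 0, 0, 0, 0, 1, 0, 0, 0, 0, 0, 0, 0, 0, 0, 1, 0]),
  (192, [0, 0, 1, 0, 0, 0, 0, 2, 0, 0, 0, 0, 0, 0, 0, 0, 0, 0, 0, 0, 0, 0, 0, 0, 0, 0, 0, 0, 0]),
  (192, [0, 0, 1, 0, 0, 1, 0, 0, 1, 0, 0, 0, 0, 0, 0, 0, 0, 0, 0, 0, 0, 0, 0, 0, 0, 0, 0, 0, 0]),
  (192, [0, 1, 0, 1, 0, 0, 0, 0, 1, 0, 0, 0, 0, 0, 0, 0, 0, 0, 0, 0, 0, 0, 0, 0, 0, 0, 0, 0, 0])]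

theorem checkT : noPackB (sB ++ sA) 174000000 nB.sum (nB ++ nA) = true := by decide +kernel

set_option maxHeartbeats 0 in
theorem checkC : allB sJ (174000000 - 126602798) 23698597 nB.sum nJ 0 (leafN 174000000 7 23698597 nA.sum sJ 7) = true := by
  decide +kernel

theorem packing (m : ℕ) (x : Fin m → Fin s.length → ℕ)
    (hfit : ∀ b, ∑ i, ((s.get i : ℚ) / (174000000 : ℕ)) * (x b i : ℚ) ≤ 1)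
    (hsum : ∀ i : Fin s.length, ∑ b, x b i = n.getD i 0) : 11 ≤ m :=
  reduce3_bound 174000000 7 126602798 23698597 7 sB sA sJ nB nA nJ (by norm_num) (by norm_num) (by decide +kernel) (by decide +kernel) (by decide +kernel)
    (by decide +kernel) (by decide +kernel) (by decide +kernel) (by decide +kernel) (by norm_num)
    checkT checkC s n rfl rfl m x hfit hsum

/-- The gap statement. -/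
theorem gap : ∃ (t : ℕ) (σ : Fin t → ℚ) (b : Fin t → ℕ) (K : ℕ) (v : ℚ),
      (∀ i, 0 < σ i ∧ σ i ≤ 1) ∧ Function.Injective σ ∧ (∀ i, 0 < b i) ∧
      (∀ (m : ℕ) (x : Fin m → Fin t → ℕ),
        (∀ j, ∑ i, σ i * (x j i : ℚ) ≤ 1) → (∀ i, ∑ j, x j i = b i) → K ≤ m) ∧
      (∃ (m : ℕ) (c : Fin m → Fin t → ℕ) (z : Fin m → ℚ),
        (∀ j, ∑ i, σ i * (c j i : ℚ) ≤ 1) ∧ (∀ j, 0 ≤ z j) ∧
        (∀ i, (b i : ℚ) ≤ ∑ j, z j * (c j i : ℚ)) ∧ ∑ j, z j = v) ∧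
      ((12239/10000 : ℚ)) < (K : ℚ) - v :=
  mk_result (12239/10000 : ℚ) 174000000 s n sol 384 3754 11 (by norm_num) (by norm_num)
    (by decide +kernel) (by decide +kernel) (by decide +kernel) (by decide +kernel)
    packing (by decide +kernel) (by decide +kernel) (by decide +kernel) (by norm_num)

end Vale.Agent.BinPack.Gap3Data
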