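import Vale.Agent.BinPack.Direct

/-!
Reduction for instances of the form: big items, small items that fit exactly into the room next to
the big items only in a way that is impossible, and further items. Either all small items lie next
to big items, which a small check excludes, or some bin without a big item holds a small item;
for that case all big items and all small items may be rounded down to one size each.
-/

namespace Vale.Agent.BinPack

/-- The sum of the first `n` coordinates. -/
def sumF : ℕ → (ℕ → ℕ) → ℕ
  | 0, _ => 0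
  | n + 1, y => y 0 + sumF n (fun i => y (i + 1))

lemma sumF_congr : ∀ (n : ℕ) (y z : ℕ → ℕ), (∀ i < n, y i = z i) → sumF n y = sumF n z := by
  intro n
  induction n with
  | zero => intro y z _; rfl
  | succ n ih =>
    intro y z h
    simp only [sumF]
    rw [h 0 (by omega), ih (fun i => y (i + 1)) (fun i => z (i + 1))
      (fun i hi => h (i + 1) (by omega))]

lemma sumF_sum {α : Type} (B : Finset α) (x : α → ℕ → ℕ) : ∀ n : ℕ,
    sumF n (fun i => ∑ b ∈ B, x b i) = ∑ b ∈ B, sumF n (x b) := by
  intro n
  induction n generalizing x with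
  | zero => simp [sumF]
  | succ n ih =>
    simp only [sumF]
    rw [ih (fun b i => x b (i + 1)), Finset.sum_add_distrib]

lemma sumF_getD : ∀ l : List ℕ, sumF l.length (fun i => l.getD i 0) = l.sum := by
  intro l
  induction l with
  | nil => rfl
  | cons a l ih =>
    simp only [List.length_cons, sumF, List.sum_cons, List.getD_cons_zero, List.getD_cons_succ]
    rw [ih]

lemma sumF_eq_zero : ∀ (n : ℕ) (y : ℕ → ℕ), sumF n y = 0 → ∀ i < n, y i = 0 := by
  intro n
  induction n with
  | zero => intro y _ i hi; omega
  | succ n ih =>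
    intro y h i hi
    simp only [sumF] at h
    cases i with
    | zero => omega
    | succ i => exact ih (fun j => y (j + 1)) (by omega) i (by omega)

lemma mul_sumF_le (m : ℕ) (s : List ℕ) (hs : ∀ a ∈ s, m ≤ a) :
    ∀ y : ℕ → ℕ, m * sumF s.length y ≤ dotF s y := by
  induction s with
  | nil => intro y; simp [sumF, dotF]
  | cons a s ih =>
    intro y
    have h1 : m ≤ a := hs a (by simp)
    have h2 := ih (fun a' ha' => hs a' (by simp [ha'])) (fun i => y (i + 1))
    simp only [List.length_cons, sumF, dotF, mul_add]
    have h3 : m * y 0 ≤ a * y 0 := Nat.mul_le_mul_right _ h1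
    omega

/-- The rounded vector of a bin: number of big items, number of small items, further items. -/
def cv (nb na : ℕ) (y : ℕ → ℕ) : ℕ → ℕ := fun i =>
  match i with
  | 0 => sumF nb y
  | 1 => sumF na (fun j => y (j + nb))
  | i + 2 => y (i + na + nb)

/-- A bin without a big item that holds a small item. -/
def wit : List ℕ → Bool
  | v0 :: v1 :: _ => decide (v0 = 0) && decide (1 ≤ v1)
  | _ => false

/-- The theorem behind the reduction, in terms of counts indexed by natural numbers. -/
theorem reduce {α : Type} [DecidableEq α]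
    (L k bm am : ℕ) (sB sA sJ nB nA nJ : List ℕ)
    (hnB : nB.length = sB.length) (hnA : nA.length = sA.length) (hnJ : nJ.length = sJ.length)
    (hbm : ∀ a ∈ sB, bm ≤ a) (ham : ∀ a ∈ sA, am ≤ a) (h2 : L < 2 * bm)
    (hT : noPackB (sB ++ sA) L nB.sum (nB ++ nA) = true)
    (hC : (decide ((k + 1) * L < dotL (bm :: am :: sJ) (nB.sum :: nA.sum :: nJ)) ||
      allPatB (bm :: am :: sJ) (nB.sum :: nA.sum :: nJ) L
        (dotL (bm :: am :: sJ) (nB.sum :: nA.sum :: nJ) - k * L)
        (dotL (bm :: am :: sJ) (nB.sum :: nA.sum :: nJ))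
        (fun c => !wit c || noPackB (bm :: am :: sJ) L k (subV (nB.sum :: nA.sum :: nJ) c))) = true)
    (B : Finset α) (x : α → ℕ → ℕ) (hcard : B.card ≤ k + 1)
    (hfit : ∀ b ∈ B, dotF (sB ++ (sA ++ sJ)) (x b) ≤ L)
    (hsum : ∀ i < (sB ++ (sA ++ sJ)).length,
      ∑ b ∈ B, x b i = (nB ++ (nA ++ nJ)).getD i 0) : False := by
  classical
  set nb := sB.length with hnb
  set na := sA.length with hna
  set sc := bm :: am :: sJ with hsc
  set rc := nB.sum :: nA.sum :: nJ with hrc
  -- splitting of the weight of a bin
  have hsplit : ∀ y : ℕ → ℕ, dotF (sB ++ (sA ++ sJ)) y =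
      dotF sB y + (dotF sA (fun i => y (i + nb)) + dotF sJ (fun i => y (i + na + nb))) := by
    intro y
    rw [dotF_append, dotF_append]
  have hcvdot : ∀ y : ℕ → ℕ, dotF sc (cv nb na y) ≤ dotF (sB ++ (sA ++ sJ)) y := by
    intro y
    rw [hsplit]
    have h1 : bm * sumF nb y ≤ dotF sB y := mul_sumF_le bm sB hbm y
    have h3 : am * sumF na (fun j => y (j + nb)) ≤ dotF sA (fun j => y (j + nb)) :=
      mul_sumF_le am sA ham (fun j => y (j + nb))
    simp only [hsc, dotF, cv]
    omega
  -- the sums over all bins
  have hlen : (sB ++ (sA ++ sJ)).length = nb + (na + sJ.length) := by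
    simp [hnb, hna]
  have hsum0 : ∑ b ∈ B, sumF nb (x b) = nB.sum := by
    rw [← sumF_sum, ← sumF_getD nB, hnB]
    apply sumF_congr
    intro i hi
    rw [hsum i (by omega), List.getD_append _ _ _ _ (by omega)]
  have hsum1 : ∑ b ∈ B, sumF na (fun j => x b (j + nb)) = nA.sum := by
    have := sumF_sum B (fun b j => x b (j + nb)) na
    rw [← this, ← sumF_getD nA, hnA]
    apply sumF_congr
    intro i hi
    rw [hsum (i + nb) (by omega), List.getD_append_right _ _ _ _ (by omega),
      List.getD_append _ _ _ _ (by omega)]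
    congr 1
    omega
  have hsum2 : ∀ i < sJ.length, ∑ b ∈ B, x b (i + na + nb) = nJ.getD i 0 := by
    intro i hi
    rw [hsum (i + na + nb) (by omega), List.getD_append_right _ _ _ _ (by omega),
      List.getD_append_right _ _ _ _ (by omega)]
    congr 1
    omega
  have hcvsum : ∀ i < sc.length, ∑ b ∈ B, cv nb na (x b) i = rc.getD i 0 := by
    intro i hi
    match i, hi with
    | 0, _ => simpa [cv, hrc] using hsum0
    | 1, _ => simpa [cv, hrc] using hsum1
    | i + 2, hi =>
      have hi' : i < sJ.length := by simpa [hsc] using hi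
      simpa [cv, hrc] using hsum2 i hi'
  have hrclen : rc.length = sc.length := by simp [hrc, hsc, hnJ]
  -- the total weight
  have htotal : dotL sc rc = ∑ b ∈ B, dotF sc (cv nb na (x b)) := by
    rw [← dotF_getD sc rc hrclen]
    have h1 : dotF sc (fun i => rc.getD i 0) = dotF sc (fun i => ∑ b ∈ B, cv nb na (x b) i) :=
      dotF_congr sc _ _ (fun i hi => (hcvsum i hi).symm)
    rw [h1, dotF_sum]
  have hcvfit : ∀ b ∈ B, dotF sc (cv nb na (x b)) ≤ L := fun b hb =>
    (hcvdot (x b)).trans (hfit b hb)
  have htot : dotL sc rc ≤ (k + 1) * L := by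
    rw [htotal]
    calc ∑ b ∈ B, dotF sc (cv nb na (x b)) ≤ ∑ _b ∈ B, L := Finset.sum_le_sum hcvfit
      _ = B.card * L := by simp
      _ ≤ (k + 1) * L := Nat.mul_le_mul_right _ hcard
  simp only [Bool.or_eq_true, decide_eq_true_eq] at hC
  rcases hC with hC | hC
  · omega
  -- is there a bin without a big item that holds a small item?
  by_cases hw : ∃ b ∈ B, sumF nb (x b) = 0 ∧ 1 ≤ sumF na (fun j => x b (j + nb))
  · obtain ⟨b, hb, hb0, hb1⟩ := hw
    have hle : ∀ i < sc.length, cv nb na (x b) i ≤ rc.getD i 0 := by
      intro i hi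
      rw [← hcvsum i hi]
      exact Finset.single_le_sum (f := fun c => cv nb na (x c) i) (fun _ _ => Nat.zero_le _) hb
    have hcard' : (B.erase b).card ≤ k := by
      rw [Finset.card_erase_of_mem hb]; omega
    have hsplit2 : dotF sc (cv nb na (x b)) + ∑ c ∈ B.erase b, dotF sc (cv nb na (x c))
        = dotL sc rc := by
      rw [htotal]
      exact Finset.add_sum_erase B (fun c => dotF sc (cv nb na (x c))) hb
    have hrest : ∑ c ∈ B.erase b, dotF sc (cv nb na (x c)) ≤ k * L := by
      calc ∑ c ∈ B.erase b, dotF sc (cv nb na (x c)) ≤ ∑ _c ∈ B.erase b, L :=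
            Finset.sum_le_sum (fun c hc => hcvfit c (Finset.mem_of_mem_erase hc))
        _ = (B.erase b).card * L := by simp
        _ ≤ k * L := Nat.mul_le_mul_right _ hcard'
    have hneed : dotL sc rc - k * L ≤ dotF sc (cv nb na (x b)) := by omega
    have hP := allPatB_sound sc rc L _ _ _ (cv nb na (x b)) hrclen rfl hle (hcvfit b hb) hneed hC
    simp only [Bool.or_eq_true, Bool.not_eq_true'] at hP
    rcases hP with hP | hP
    · have hwit : wit (vec sc.length (cv nb na (x b))) = true := by
        simp only [hsc, List.length_cons, vec, wit, cv]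
        simp [hb0, hb1]
      rw [hwit] at hP
      exact Bool.noConfusion hP
    · have hvec : subV rc (vec sc.length (cv nb na (x b)))
          = subV rc (vec rc.length (cv nb na (x b))) := by rw [hrclen]
      rw [hvec] at hP
      refine noPackB_sound sc L k _ (by rw [length_subV]; exact hrclen) hP
        (B.erase b) (fun c => cv nb na (x c)) hcard'
        (fun c hc => hcvfit c (Finset.mem_of_mem_erase hc)) ?_
      intro i hi
      have hi' : i < rc.length := by omega
      rw [getD_subV _ _ _ hi', ← hcvsum i hi, ← Finset.add_sum_erase B (fun c => cv nb na (x c) i) hb]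
      simp
  · -- all small items lie next to big items
    push Not at hw
    -- at most one big item in a bin
    have hle1 : ∀ b ∈ B, sumF nb (x b) ≤ 1 := by
      intro b hb
      by_contra hne
      have h1 : bm * sumF nb (x b) ≤ dotF sB (x b) := mul_sumF_le bm sB hbm (x b)
      have h3 := hfit b hb
      rw [hsplit] at h3
      have h4 : bm * 2 ≤ bm * sumF nb (x b) := Nat.mul_le_mul_left _ (by omega)
      omega
    set B' := B.filter (fun b => 1 ≤ sumF nb (x b)) with hB'
    have hB'sub : B' ⊆ B := Finset.filter_subset _ _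
    have hcardB' : B'.card = nB.sum := by
      rw [← hsum0, hB', Finset.card_filter]
      apply Finset.sum_congr rfl
      intro b hb
      have := hle1 b hb
      by_cases hy : 1 ≤ sumF nb (x b)
      · simp only [hy, if_true]; omega
      · simp only [hy, if_false]; omega
    refine noPackB_sound (sB ++ sA) L nB.sum (nB ++ nA)
      (by simp only [List.length_append]; omega) hT B' x hcardB'.le ?_ ?_
    · intro b hb
      have h3 := hfit b (hB'sub hb)
      rw [hsplit] at h3
      rw [dotF_append]
      have e : (fun i => x b (i + sB.length)) = (fun i => x b (i + nb)) := rfl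
      rw [e]
      omega
    · intro i hi
      have hi' : i < nb + na := by simpa only [List.length_append] using hi
      have e1 : nB.length = nb := hnB
      have e2 : nA.length = na := hnA
      have hout : ∀ b ∈ B \ B', x b i = 0 := by
        intro b hb
        obtain ⟨hbB, hbn⟩ := Finset.mem_sdiff.mp hb
        have h0 : sumF nb (x b) = 0 := by
          by_contra hne
          exact hbn (Finset.mem_filter.mpr ⟨hbB, Nat.one_le_iff_ne_zero.mpr hne⟩)
        by_cases hin : i < nb
        · exact sumF_eq_zero nb (x b) h0 i hin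
        · have h1 := hw b hbB h0
          have h2 : sumF na (fun j => x b (j + nb)) = 0 := Nat.lt_one_iff.mp h1
          have h3 : i - nb < na := Nat.sub_lt_left_of_lt_add (Nat.le_of_not_lt hin) hi'
          have h4 := sumF_eq_zero na _ h2 (i - nb) h3
          simpa only [Nat.sub_add_cancel (Nat.le_of_not_lt hin)] using h4
      have hs := hsum i (lt_of_lt_of_le hi' (by rw [hlen]; exact Nat.add_le_add_left (Nat.le_add_right _ _) _))
      rw [← Finset.sum_sdiff hB'sub, Finset.sum_eq_zero hout, zero_add] at hs
      rw [hs]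
      by_cases hin : i < nb
      · have h5 : i < nB.length := by rw [e1]; exact hin
        rw [List.getD_append _ _ _ _ h5, List.getD_append _ _ _ _ h5]
      · have h5 : nB.length ≤ i := by rw [e1]; exact Nat.le_of_not_lt hin
        have h6 : i - nB.length < nA.length := by
          rw [e1, e2]; exact Nat.sub_lt_left_of_lt_add (Nat.le_of_not_lt hin) hi'
        rw [List.getD_append_right _ _ _ _ h5, List.getD_append_right _ _ _ _ h5,
          List.getD_append _ _ _ _ h6]

/-- The counting bound for an instance given by lists, in the form used in the statement. -/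
theorem reduce_bound (L k bm am : ℕ) (sB sA sJ nB nA nJ : List ℕ) (hL : 0 < L)
    (hnB : nB.length = sB.length) (hnA : nA.length = sA.length) (hnJ : nJ.length = sJ.length)
    (hbm : ∀ a ∈ sB, bm ≤ a) (ham : ∀ a ∈ sA, am ≤ a) (h2 : L < 2 * bm)
    (hT : noPackB (sB ++ sA) L nB.sum (nB ++ nA) = true)
    (hC : (decide ((k + 1) * L < dotL (bm :: am :: sJ) (nB.sum :: nA.sum :: nJ)) ||
      allPatB (bm :: am :: sJ) (nB.sum :: nA.sum :: nJ) L
        (dotL (bm :: am :: sJ) (nB.sum :: nA.sum :: nJ) - k * L)
        (dotL (bm :: am :: sJ) (nB.sum :: nA.sum :: nJ))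
        (fun c => !wit c || noPackB (bm :: am :: sJ) L k (subV (nB.sum :: nA.sum :: nJ) c))) = true)
    (s n : List ℕ) (hs : s = sB ++ (sA ++ sJ)) (hn : n = nB ++ (nA ++ nJ))
    (m : ℕ) (x : Fin m → Fin s.length → ℕ)
    (hfit : ∀ b, ∑ i, ((s.get i : ℚ) / L) * (x b i : ℚ) ≤ 1)
    (hsum : ∀ i : Fin s.length, ∑ b, x b i = n.getD i 0) :
    k + 2 ≤ m := by
  subst hs hn
  by_contra hlt
  push Not at hlt
  refine reduce (α := Fin m) L k bm am sB sA sJ nB nA nJ hnB hnA hnJ hbm ham h2 hT hC
    Finset.univ (fun b => extF (x b)) (by simp; omega) ?_ ?_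
  · intro b _
    rw [dotF_extF]
    have hb := hfit b
    have hL' : (0 : ℚ) < L := by exact_mod_cast hL
    have e : ∑ i, (((sB ++ (sA ++ sJ)).get i : ℕ) : ℚ) / L * (x b i : ℚ)
        = ((∑ i, (sB ++ (sA ++ sJ)).get i * x b i : ℕ) : ℚ) / L := by
      push_cast
      rw [Finset.sum_div]
      apply Finset.sum_congr rfl
      intro i _
      ring
    rw [e, div_le_one hL'] at hb
    exact_mod_cast hb
  · intro i hi
    have := hsum ⟨i, hi⟩
    simp only [extF, hi, dif_pos]
    exact this

end Vale.Agent.BinPack
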