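import Vale.Agent.BinPack.Reduce

/-!
A sharper form of the reduction: the contents of the bins with a big item are enumerated first, and
what remains is one check for the bins without a big item.
-/

namespace Vale.Agent.BinPack

/-- Enumerates the contents `c` of `nb` bins of room `R`, keeping track of how many items of size
`am` the bins can still take. -/
def allB (s : List ℕ) (R am : ℕ) : ℕ → List ℕ → ℕ → (List ℕ → ℕ → Bool) → Bool
  | 0, r, w, P => P r w
  | nb + 1, r, w, P =>
      allPat s r R (fun c => allB s R am nb (subV r c) (w + (R - dotL s c) / am) P)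

lemma dotL_vec (s : List ℕ) : ∀ y : ℕ → ℕ, dotL s (vec s.length y) = dotF s y := by
  induction s with
  | nil => intro y; simp [dotL, dotF, vec]
  | cons a s ih =>
    intro y
    simp only [List.length_cons, vec, dotL, dotF]
    rw [ih]

lemma allB_sound {α : Type} [DecidableEq α] (s : List ℕ) (R am : ℕ) (ham : 0 < am) :
    ∀ (nb : ℕ) (r : List ℕ) (w : ℕ) (P : List ℕ → ℕ → Bool), r.length = s.length →
    allB s R am nb r w P = true →
    ∀ (B' : Finset α) (z : α → ℕ → ℕ) (j : α → ℕ), B'.card = nb →
      (∀ b ∈ B', am * j b + dotF s (z b) ≤ R) →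
      (∀ i < s.length, ∑ b ∈ B', z b i ≤ r.getD i 0) →
      ∃ (r' : List ℕ) (w' : ℕ), P r' w' = true ∧ r'.length = s.length ∧
        (∀ i < s.length, r'.getD i 0 = r.getD i 0 - ∑ b ∈ B', z b i) ∧
        w + ∑ b ∈ B', j b ≤ w' := by
  intro nb
  induction nb with
  | zero =>
    intro r w P hlen h B' z j hcard _ _
    have hB : B' = ∅ := Finset.card_eq_zero.mp hcard
    subst hB
    exact ⟨r, w, by simpa [allB] using h, hlen, by simp, by simp⟩
  | succ nb ih =>
    intro r w P hlen h B' z j hcard hfit hle
    have hne : B'.Nonempty := by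
      rw [← Finset.card_pos]; omega
    obtain ⟨b, hb⟩ := hne
    have hsplitz : ∀ i, ∑ c ∈ B', z c i = z b i + ∑ c ∈ B'.erase b, z c i := fun i =>
      (Finset.add_sum_erase B' (fun c => z c i) hb).symm
    have hfb := hfit b hb
    have hyle : ∀ i < s.length, z b i ≤ r.getD i 0 := by
      intro i hi
      have := hle i hi
      rw [hsplitz] at this
      omega
    have hA := allPat_sound s r R _ (z b) hlen hyle (by omega) h
    have hrlen1 : (subV r (vec s.length (z b))).length = s.length := by
      rw [← hlen, length_subV]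
    have hget : ∀ i < s.length, (subV r (vec s.length (z b))).getD i 0 = r.getD i 0 - z b i := by
      intro i hi
      rw [← hlen]
      exact getD_subV (z b) r i (by omega)
    obtain ⟨r', w', hP, hr'len, hr', hw'⟩ := ih (subV r (vec s.length (z b)))
      (w + (R - dotL s (vec s.length (z b))) / am) P hrlen1 hA (B'.erase b) z j
      (by rw [Finset.card_erase_of_mem hb]; omega)
      (fun c hc => hfit c (Finset.mem_of_mem_erase hc))
      (fun i hi => by
        rw [hget i hi]
        have := hle i hi
        rw [hsplitz] at this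
        omega)
    refine ⟨r', w', hP, hr'len, ?_, ?_⟩
    · intro i hi
      rw [hr' i hi, hget i hi, hsplitz i]
      omega
    · rw [← Finset.add_sum_erase B' j hb]
      rw [dotL_vec] at hw'
      have h1 : j b ≤ (R - dotF s (z b)) / am := by
        rw [Nat.le_div_iff_mul_le ham]
        have : am * j b = j b * am := Nat.mul_comm _ _
        omega
      omega

/-- The final check for the bins without a big item. -/
def leafChk (L kJ am na : ℕ) (sJ : List ℕ) (r : List ℕ) (w : ℕ) : Bool :=
  (List.range (na + 1)).all fun n' =>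
    decide (n' = 0) || decide (n' + w < na) || noPackB (am :: sJ) L kJ (n' :: r)

/-- The sharper reduction, in terms of counts indexed by natural numbers. -/
theorem reduce2 {α : Type} [DecidableEq α]
    (L kJ bm am : ℕ) (sB sA sJ nB nA nJ : List ℕ) (ham0 : 0 < am)
    (hnB : nB.length = sB.length) (hnA : nA.length = sA.length) (hnJ : nJ.length = sJ.length)
    (hbm : ∀ a ∈ sB, bm ≤ a) (ham : ∀ a ∈ sA, am ≤ a) (h2 : L < 2 * bm)
    (hT : noPackB (sB ++ sA) L nB.sum (nB ++ nA) = true)
    (hC : allB sJ (L - bm) am nB.sum nJ 0 (leafChk L kJ am nA.sum sJ) = true)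
    (B : Finset α) (x : α → ℕ → ℕ) (hcard : B.card ≤ nB.sum + kJ)
    (hfit : ∀ b ∈ B, dotF (sB ++ (sA ++ sJ)) (x b) ≤ L)
    (hsum : ∀ i < (sB ++ (sA ++ sJ)).length,
      ∑ b ∈ B, x b i = (nB ++ (nA ++ nJ)).getD i 0) : False := by
  classical
  have hnb : sB.length = nB.length := hnB.symm
  have hna : sA.length = nA.length := hnA.symm
  obtain ⟨nb, hnbv⟩ : ∃ n, n = sB.length := ⟨_, rfl⟩
  obtain ⟨na, hnav⟩ : ∃ n, n = sA.length := ⟨_, rfl⟩
  have hsplit : ∀ y : ℕ → ℕ, dotF (sB ++ (sA ++ sJ)) y =
      dotF sB y + (dotF sA (fun i => y (i + nb)) + dotF sJ (fun i => y (i + na + nb))) := by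
    intro y
    rw [dotF_append, dotF_append, hnbv, hnav]
  have hlen : (sB ++ (sA ++ sJ)).length = nb + (na + sJ.length) := by
    simp [hnbv, hnav]
  have hsum0 : ∑ b ∈ B, sumF nb (x b) = nB.sum := by
    rw [← sumF_sum, ← sumF_getD nB, hnB, ← hnbv]
    apply sumF_congr
    intro i hi
    rw [hsum i (by omega), List.getD_append _ _ _ _ (by omega)]
  have hsum1 : ∑ b ∈ B, sumF na (fun j => x b (j + nb)) = nA.sum := by
    have := sumF_sum B (fun b j => x b (j + nb)) na
    rw [← this, ← sumF_getD nA, hnA, ← hnav]
    apply sumF_congr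
    intro i hi
    rw [hsum (i + nb) (by omega), List.getD_append_right _ _ _ _ (by omega),
      List.getD_append _ _ _ _ (by omega)]
    congr 1
    omega
  have hsum2 : ∀ i < sJ.length, ∑ b ∈ B, x b (i + na + nb) = nJ.getD i 0 := by
    intro i hi
    rw [hsum (i + na + nb) (by omega), List.getD_append_right _ _ _ _ (by omega),
      List.getD_append_right _ _ _ _ (by omega)]
    congr 1
    omega
  have hbmle : ∀ y : ℕ → ℕ, bm * sumF nb y ≤ dotF sB y := by
    intro y
    rw [hnbv]
    exact mul_sumF_le bm sB hbm y
  have hamle : ∀ y : ℕ → ℕ, am * sumF na y ≤ dotF sA y := by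
    intro y
    rw [hnav]
    exact mul_sumF_le am sA ham y
  have hle1 : ∀ b ∈ B, sumF nb (x b) ≤ 1 := by
    intro b hb
    by_contra hne
    have h1 := hbmle (x b)
    have h3 := hfit b hb
    rw [hsplit] at h3
    have h4 : bm * 2 ≤ bm * sumF nb (x b) := Nat.mul_le_mul_left _ (by omega)
    omega
  set B' := B.filter (fun b => 1 ≤ sumF nb (x b)) with hB'
  have hB'sub : B' ⊆ B := Finset.filter_subset _ _
  have hcardB' : B'.card = nB.sum := by
    rw [← hsum0, hB', Finset.card_filter]
    apply Finset.sum_congr rfl
    intro b hb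
    have := hle1 b hb
    by_cases hy : 1 ≤ sumF nb (x b)
    · simp only [hy, if_true]; omega
    · simp only [hy, if_false]; omega
  have hout0 : ∀ b ∈ B \ B', sumF nb (x b) = 0 := by
    intro b hb
    obtain ⟨hbB, hbn⟩ := Finset.mem_sdiff.mp hb
    by_contra hne
    exact hbn (Finset.mem_filter.mpr ⟨hbB, Nat.one_le_iff_ne_zero.mpr hne⟩)
  have hcardout : (B \ B').card ≤ kJ := by
    have := Finset.card_sdiff_add_card_eq_card hB'sub
    omega
  -- the small items outside
  obtain ⟨n', hn'⟩ : ∃ n', n' = ∑ b ∈ B \ B', sumF na (fun j => x b (j + nb)) := ⟨_, rfl⟩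
  have hsplitA : n' + ∑ b ∈ B', sumF na (fun j => x b (j + nb)) = nA.sum := by
    rw [hn', Finset.sum_sdiff hB'sub, hsum1]
  by_cases hn0 : n' = 0
  · -- all small items lie next to big items
    refine noPackB_sound (sB ++ sA) L nB.sum (nB ++ nA) (by simp only [List.length_append]; omega)
      hT B' x hcardB'.le ?_ ?_
    · intro b hb
      have h3 := hfit b (hB'sub hb)
      rw [hsplit] at h3
      rw [dotF_append, ← hnbv]
      omega
    · intro i hi
      have hi' : i < nb + na := by
        simpa only [List.length_append, hnbv, hnav] using hi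
      have hzero : ∀ b ∈ B \ B', sumF na (fun j => x b (j + nb)) = 0 := by
        intro b hb
        rw [hn'] at hn0
        exact (Finset.sum_eq_zero_iff.mp hn0) b hb
      have hout : ∀ b ∈ B \ B', x b i = 0 := by
        intro b hb
        by_cases hin : i < nb
        · exact sumF_eq_zero nb (x b) (hout0 b hb) i hin
        · have h4 := sumF_eq_zero na _ (hzero b hb) (i - nb) (by omega)
          simpa only [Nat.sub_add_cancel (Nat.le_of_not_lt hin)] using h4
      have hs := hsum i (by omega)
      rw [← Finset.sum_sdiff hB'sub, Finset.sum_eq_zero hout, zero_add] at hs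
      rw [hs]
      have e1 : nB.length = nb := by omega
      have e2 : nA.length = na := by omega
      by_cases hin : i < nb
      · have h5 : i < nB.length := by omega
        rw [List.getD_append _ _ _ _ h5, List.getD_append _ _ _ _ h5]
      · have h5 : nB.length ≤ i := by omega
        have h6 : i - nB.length < nA.length := by omega
        rw [List.getD_append_right _ _ _ _ h5, List.getD_append_right _ _ _ _ h5,
          List.getD_append _ _ _ _ h6]
  · -- some small item lies in a bin without a big item
    have hbroom : ∀ b ∈ B', am * sumF na (fun j => x b (j + nb)) +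
        dotF sJ (fun i => x b (i + na + nb)) ≤ L - bm := by
      intro b hb
      obtain ⟨hbB, hb1⟩ := Finset.mem_filter.mp hb
      have h1 := hbmle (x b)
      have h3 := hfit b hbB
      rw [hsplit] at h3
      have h4 := hamle (fun j => x b (j + nb))
      have h5 : bm * 1 ≤ bm * sumF nb (x b) := Nat.mul_le_mul_left _ hb1
      omega
    have hleJ : ∀ i < sJ.length, ∑ b ∈ B', x b (i + na + nb) ≤ nJ.getD i 0 := by
      intro i hi
      rw [← hsum2 i hi]
      exact Finset.sum_le_sum_of_subset_of_nonneg hB'sub (fun _ _ _ => Nat.zero_le _)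
    obtain ⟨r', w', hP, hr'len, hr', hw'⟩ := allB_sound (α := α) sJ (L - bm) am ham0 nB.sum nJ 0
      (leafChk L kJ am nA.sum sJ) hnJ hC B' (fun b i => x b (i + na + nb))
      (fun b => sumF na (fun j => x b (j + nb))) hcardB' hbroom hleJ
    simp only [leafChk, List.all_eq_true, List.mem_range, Bool.or_eq_true, decide_eq_true_eq] at hP
    have hn'le : n' < nA.sum + 1 := by omega
    rcases hP n' hn'le with (h6 | h6) | h6
    · exact hn0 h6
    · omega
    · -- the rest
      let u : α → ℕ → ℕ := fun b i =>
        match i with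
        | 0 => sumF na (fun j => x b (j + nb))
        | i + 1 => x b (i + na + nb)
      refine noPackB_sound (am :: sJ) L kJ (n' :: r') (by simp [hr'len]) h6 (B \ B') u hcardout ?_ ?_
      · intro b hb
        have hbB := (Finset.mem_sdiff.mp hb).1
        have h3 := hfit b hbB
        rw [hsplit] at h3
        have h4 := hamle (fun j => x b (j + nb))
        simp only [dotF, u]
        omega
      · intro i hi
        match i, hi with
        | 0, _ =>
          simpa [u] using hn'.symm
        | i + 1, hi =>
          have hi' : i < sJ.length := by simpa using hi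
          have h7 := hr' i hi'
          simp only [List.getD_cons_succ, u]
          rw [h7, ← hsum2 i hi', ← Finset.sum_sdiff hB'sub]
          omega

/-- The counting bound for an instance given by lists, in the form used in the statement. -/
theorem reduce2_bound (L kJ bm am : ℕ) (sB sA sJ nB nA nJ : List ℕ) (hL : 0 < L) (ham0 : 0 < am)
    (hnB : nB.length = sB.length) (hnA : nA.length = sA.length) (hnJ : nJ.length = sJ.length)
    (hbm : ∀ a ∈ sB, bm ≤ a) (ham : ∀ a ∈ sA, am ≤ a) (h2 : L < 2 * bm)
    (hT : noPackB (sB ++ sA) L nB.sum (nB ++ nA) = true)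
    (hC : allB sJ (L - bm) am nB.sum nJ 0 (leafChk L kJ am nA.sum sJ) = true)
    (s n : List ℕ) (hs : s = sB ++ (sA ++ sJ)) (hn : n = nB ++ (nA ++ nJ))
    (m : ℕ) (x : Fin m → Fin s.length → ℕ)
    (hfit : ∀ b, ∑ i, ((s.get i : ℚ) / L) * (x b i : ℚ) ≤ 1)
    (hsum : ∀ i : Fin s.length, ∑ b, x b i = n.getD i 0) :
    nB.sum + kJ + 1 ≤ m := by
  subst hs hn
  by_contra hlt
  push Not at hlt
  refine reduce2 (α := Fin m) L kJ bm am sB sA sJ nB nA nJ ham0 hnB hnA hnJ hbm ham h2 hT hC
    Finset.univ (fun b => extF (x b)) (by simp; omega) ?_ ?_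
  · intro b _
    rw [dotF_extF]
    have hb := hfit b
    have hL' : (0 : ℚ) < L := by exact_mod_cast hL
    have e : ∑ i, (((sB ++ (sA ++ sJ)).get i : ℕ) : ℚ) / L * (x b i : ℚ)
        = ((∑ i, (sB ++ (sA ++ sJ)).get i * x b i : ℕ) : ℚ) / L := by
      push_cast
      rw [Finset.sum_div]
      apply Finset.sum_congr rfl
      intro i _
      ring
    rw [e, div_le_one hL'] at hb
    exact_mod_cast hb
  · intro i hi
    have := hsum ⟨i, hi⟩
    simp only [extF, hi, dif_pos]
    exact this

end Vale.Agent.BinPack
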